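import Vale.Agent.P097.H896.D3.Lab

/-! # P097 / H896 / D3 : regularity of the label at a point, base change -/

set_option linter.all false

open Polynomial

namespace Vale.Agent.P097.H896.D3

open Vale.Agent.P097.Disc

variable {K : Type*} [Field K]

/-! ### rational functions regular at `s` -/

theorem regAt_iff {f : RatFunc K} {s : K} : RegAt f s ↔ ∃ u v : K[X], v.eval s ≠ 0 ∧
    f * algebraMap K[X] (RatFunc K) v = algebraMap K[X] (RatFunc K) u := by
  constructor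
  · intro h
    refine ⟨f.num, f.denom, h, ?_⟩
    nth_rw 1 [← RatFunc.num_div_denom f]
    rw [div_mul_cancel₀]
    exact RatFunc.algebraMap_ne_zero f.denom_ne_zero
  · rintro ⟨u, v, hv, h⟩
    have hv0 : v ≠ 0 := by rintro rfl; simp at hv
    have h1 : f.denom ∣ v := (RatFunc.denom_dvd hv0).2 ⟨u, by
      rw [eq_div_iff (RatFunc.algebraMap_ne_zero hv0), h]⟩
    obtain ⟨w, rfl⟩ := h1
    intro h0
    apply hv
    rw [eval_mul, h0, zero_mul]

theorem regAt_algebraMap (f : K[X]) (s : K) : RegAt (algebraMap K[X] (RatFunc K) f) s :=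
  regAt_iff.2 ⟨f, 1, by simp, by simp⟩

theorem regAt_C (c : K) (s : K) : RegAt (RatFunc.C c) s := by
  rw [← RatFunc.algebraMap_C]; exact regAt_algebraMap _ _

theorem regAt_X (s : K) : RegAt (RatFunc.X : RatFunc K) s := by
  rw [← RatFunc.algebraMap_X]; exact regAt_algebraMap _ _

/-- the ring of rational functions regular at `s` -/
def Rg (s : K) : Subring (RatFunc K) where
  carrier := {f | RegAt f s}
  mul_mem' := by
    intro f g hf hg
    obtain ⟨u, v, hv, h⟩ := regAt_iff.1 hf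
    obtain ⟨u', v', hv', h'⟩ := regAt_iff.1 hg
    refine regAt_iff.2 ⟨u * u', v * v', by rw [eval_mul]; exact mul_ne_zero hv hv', ?_⟩
    rw [map_mul, map_mul, ← h, ← h']
    ring
  one_mem' := by
    have := regAt_C (1 : K) s
    rwa [map_one] at this
  add_mem' := by
    intro f g hf hg
    obtain ⟨u, v, hv, h⟩ := regAt_iff.1 hf
    obtain ⟨u', v', hv', h'⟩ := regAt_iff.1 hg
    refine regAt_iff.2 ⟨u * v' + u' * v, v * v', by rw [eval_mul]; exact mul_ne_zero hv hv', ?_⟩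
    rw [map_mul, map_add, map_mul, map_mul, ← h, ← h']
    ring
  zero_mem' := by
    have := regAt_C (0 : K) s
    rwa [map_zero] at this
  neg_mem' := by
    intro f hf
    obtain ⟨u, v, hv, h⟩ := regAt_iff.1 hf
    refine regAt_iff.2 ⟨-u, v, hv, ?_⟩
    rw [map_neg, ← h]
    ring

theorem mem_rg {f : RatFunc K} {s : K} : f ∈ Rg s ↔ RegAt f s := Iff.rfl

/-- value at `s` -/
noncomputable def ev (s : K) (f : RatFunc K) : K := f.num.eval s / f.denom.eval s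

theorem ev_of {f : RatFunc K} {s : K} {u v : K[X]} (hv : v.eval s ≠ 0)
    (h : f * algebraMap K[X] (RatFunc K) v = algebraMap K[X] (RatFunc K) u) :
    ev s f = u.eval s / v.eval s := by
  have hf : RegAt f s := regAt_iff.2 ⟨u, v, hv, h⟩
  have h1 : f * algebraMap K[X] (RatFunc K) f.denom = algebraMap K[X] (RatFunc K) f.num := by
    nth_rw 1 [← RatFunc.num_div_denom f]
    rw [div_mul_cancel₀]
    exact RatFunc.algebraMap_ne_zero f.denom_ne_zero
  have h2 : f.num * v = u * f.denom := by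
    apply RatFunc.algebraMap_injective K
    rw [map_mul, map_mul, ← h, ← h1]
    ring
  have h3 := congrArg (Polynomial.eval s) h2
  rw [eval_mul, eval_mul] at h3
  rw [ev, div_eq_div_iff hf hv, h3]

theorem ev_algebraMap (s : K) (f : K[X]) : ev s (algebraMap K[X] (RatFunc K) f) = f.eval s := by
  rw [ev_of (u := f) (v := 1) (by simp) (by simp)]
  simp

theorem ev_C (s c : K) : ev s (RatFunc.C c) = c := by
  rw [← RatFunc.algebraMap_C, ev_algebraMap, eval_C]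

theorem ev_X (s : K) : ev s (RatFunc.X : RatFunc K) = s := by
  rw [← RatFunc.algebraMap_X, ev_algebraMap, eval_X]

/-- value at `s` as a ring homomorphism -/
noncomputable def evH (s : K) : Rg s →+* K where
  toFun f := ev s f
  map_one' := by
    have := ev_C s (1 : K)
    rwa [map_one] at this
  map_zero' := by
    have := ev_C s (0 : K)
    rwa [map_zero] at this
  map_add' f g := by
    obtain ⟨u, v, hv, h⟩ := regAt_iff.1 (mem_rg.1 f.2)
    obtain ⟨u', v', hv', h'⟩ := regAt_iff.1 (mem_rg.1 g.2)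
    show ev s ((f : RatFunc K) + g) = ev s f + ev s g
    rw [ev_of hv h, ev_of hv' h', ev_of (u := u * v' + u' * v) (v := v * v')
      (by rw [eval_mul]; exact mul_ne_zero hv hv')]
    · simp only [eval_mul, eval_add]
      field_simp
    · rw [map_mul, map_add, map_mul, map_mul, ← h, ← h']
      ring
  map_mul' f g := by
    obtain ⟨u, v, hv, h⟩ := regAt_iff.1 (mem_rg.1 f.2)
    obtain ⟨u', v', hv', h'⟩ := regAt_iff.1 (mem_rg.1 g.2)
    show ev s ((f : RatFunc K) * g) = ev s f * ev s g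
    rw [ev_of hv h, ev_of hv' h', ev_of (u := u * u') (v := v * v')
      (by rw [eval_mul]; exact mul_ne_zero hv hv')]
    · simp only [eval_mul]
      field_simp
    · rw [map_mul, map_mul, ← h, ← h']
      ring

theorem evH_apply {s : K} (f : Rg s) : evH s f = ev s (f : RatFunc K) := rfl

theorem ev_add {s : K} {f g : RatFunc K} (hf : f ∈ Rg s) (hg : g ∈ Rg s) :
    ev s (f + g) = ev s f + ev s g := (evH s).map_add ⟨f, hf⟩ ⟨g, hg⟩

theorem ev_sub {s : K} {f g : RatFunc K} (hf : f ∈ Rg s) (hg : g ∈ Rg s) :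
    ev s (f - g) = ev s f - ev s g := (evH s).map_sub ⟨f, hf⟩ ⟨g, hg⟩

theorem ev_neg {s : K} {f : RatFunc K} (hf : f ∈ Rg s) :
    ev s (-f) = -ev s f := (evH s).map_neg ⟨f, hf⟩

theorem ev_mul {s : K} {f g : RatFunc K} (hf : f ∈ Rg s) (hg : g ∈ Rg s) :
    ev s (f * g) = ev s f * ev s g := (evH s).map_mul ⟨f, hf⟩ ⟨g, hg⟩

theorem ev_pow {s : K} {f : RatFunc K} (hf : f ∈ Rg s) (n : ℕ) :
    ev s (f ^ n) = ev s f ^ n := (evH s).map_pow ⟨f, hf⟩ n

theorem ev_sum {ι : Type*} {s : K} (t : Finset ι) (f : ι → RatFunc K) (hf : ∀ i ∈ t, f i ∈ Rg s) :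
    ev s (∑ i ∈ t, f i) = ∑ i ∈ t, ev s (f i) := by
  classical
  induction t using Finset.induction_on with
  | empty =>
    have := ev_C s (0 : K)
    rwa [map_zero] at this
  | insert i t hi ih =>
    rw [Finset.sum_insert hi, Finset.sum_insert hi, ev_add (hf i (Finset.mem_insert_self _ _))
      ((Rg s).sum_mem fun j hj => hf j (Finset.mem_insert_of_mem hj)),
      ih fun j hj => hf j (Finset.mem_insert_of_mem hj)]

theorem inv_mem_rg {s : K} {f : RatFunc K} (hf : f ∈ Rg s) (h0 : ev s f ≠ 0) : f⁻¹ ∈ Rg s := by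
  obtain ⟨u, v, hv, h⟩ := regAt_iff.1 (mem_rg.1 hf)
  rw [ev_of hv h] at h0
  have hu : u.eval s ≠ 0 := fun h1 => h0 (by rw [h1, zero_div])
  have hf0 : f ≠ 0 := by
    rintro rfl
    apply hu
    rw [zero_mul] at h
    have : u = 0 := RatFunc.algebraMap_injective K (by rw [← h, map_zero])
    rw [this, eval_zero]
  refine regAt_iff.2 ⟨v, u, hu, ?_⟩
  rw [← h, ← mul_assoc, inv_mul_cancel₀ hf0, one_mul]

theorem ev_inv {s : K} {f : RatFunc K} (hf : f ∈ Rg s) (h0 : ev s f ≠ 0) :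
    ev s f⁻¹ = (ev s f)⁻¹ := by
  have h1 : f ≠ 0 := by
    rintro rfl
    apply h0
    have := ev_C s (0 : K)
    rwa [map_zero] at this
  have h2 := ev_mul hf (inv_mem_rg hf h0)
  rw [mul_inv_cancel₀ h1] at h2
  have h3 : ev s (1 : RatFunc K) = 1 := by
    have := ev_C s (1 : K)
    rwa [map_one] at this
  rw [h3] at h2
  exact (eq_inv_of_mul_eq_one_right h2.symm)

/-- a regular function which vanishes at `s` is divisible by `X - s` -/
theorem exists_of_ev_eq_zero {s : K} {f : RatFunc K} (hf : f ∈ Rg s) (h0 : ev s f = 0) :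
    ∃ w ∈ Rg s, f = (RatFunc.X - RatFunc.C s) * w := by
  obtain ⟨u, v, hv, h⟩ := regAt_iff.1 (mem_rg.1 hf)
  rw [ev_of hv h, div_eq_zero_iff, or_iff_left hv] at h0
  obtain ⟨w, rfl⟩ := Polynomial.dvd_iff_isRoot.2 h0
  have hv0 : v ≠ 0 := by rintro rfl; simp at hv
  have hv1 : algebraMap K[X] (RatFunc K) v ≠ 0 := RatFunc.algebraMap_ne_zero hv0
  refine ⟨algebraMap K[X] (RatFunc K) w / algebraMap K[X] (RatFunc K) v, regAt_iff.2 ⟨w, v, hv, ?_⟩, ?_⟩
  · rw [div_mul_cancel₀ _ hv1]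
  · rw [← mul_div_assoc, eq_div_iff hv1, h, map_mul, map_sub, RatFunc.algebraMap_X,
      RatFunc.algebraMap_C]

/-! ### polynomials and rational functions at a regular function -/

theorem eval₂_mem_rg {s : K} {q : RatFunc K} (hq : q ∈ Rg s) (f : K[X]) :
    f.eval₂ RatFunc.C q ∈ Rg s := by
  rw [Polynomial.eval₂_eq_sum_range]
  exact (Rg s).sum_mem fun i _ => (Rg s).mul_mem (regAt_C _ _) ((Rg s).pow_mem hq i)

theorem ev_eval₂ {s : K} {q : RatFunc K} (hq : q ∈ Rg s) (f : K[X]) :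
    ev s (f.eval₂ RatFunc.C q) = f.eval (ev s q) := by
  rw [Polynomial.eval₂_eq_sum_range, Polynomial.eval_eq_sum_range, ev_sum]
  · refine Finset.sum_congr rfl fun i _ => ?_
    rw [ev_mul (regAt_C _ _) ((Rg s).pow_mem hq i), ev_C, ev_pow hq]
  · exact fun i _ => (Rg s).mul_mem (regAt_C _ _) ((Rg s).pow_mem hq i)

theorem Xinv_mem_rg {s : K} (hs : s ≠ 0) : (RatFunc.X⁻¹ : RatFunc K) ∈ Rg s :=
  inv_mem_rg (regAt_X s) (by rwa [ev_X])

theorem ev_Xinv {s : K} (hs : s ≠ 0) : ev s (RatFunc.X⁻¹ : RatFunc K) = s⁻¹ := by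
  rw [ev_inv (regAt_X s) (by rwa [ev_X]), ev_X]

theorem p0_mem_rg {s : K} (hs : s ≠ 0) : (p0 : RatFunc K) ∈ Rg s :=
  (Rg s).mul_mem (regAt_C _ _) ((Rg s).add_mem (regAt_X s) (Xinv_mem_rg hs))

theorem ev_p0 {s : K} (hs : s ≠ 0) : ev s (p0 : RatFunc K) = (s + s⁻¹) / 2 := by
  rw [p0, ev_mul (regAt_C _ _) ((Rg s).add_mem (regAt_X s) (Xinv_mem_rg hs)),
    ev_add (regAt_X s) (Xinv_mem_rg hs), ev_C, ev_X, ev_Xinv hs]
  ring

/-- the involution exchanges the points `s` and `s⁻¹` -/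
theorem iota_mem_rg {s : K} (hs : s ≠ 0) {f : RatFunc K} (hf : f ∈ Rg s⁻¹) : iota f ∈ Rg s := by
  obtain ⟨u, v, hv, h⟩ := regAt_iff.1 (mem_rg.1 hf)
  have h1 := congrArg iota h
  rw [map_mul, iota_algebraMap, iota_algebraMap] at h1
  have h2 : ev s (v.eval₂ RatFunc.C RatFunc.X⁻¹) ≠ 0 := by
    rwa [ev_eval₂ (Xinv_mem_rg hs), ev_Xinv hs]
  have h3 := eval₂_mem_rg (Xinv_mem_rg hs) v
  have h4 := (Rg s).mul_mem (eval₂_mem_rg (Xinv_mem_rg hs) u) (inv_mem_rg h3 h2)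
  have h5 : v.eval₂ RatFunc.C (RatFunc.X⁻¹ : RatFunc K) ≠ 0 := by
    intro h0
    apply h2
    rw [h0]
    have := ev_C s (0 : K)
    rwa [map_zero] at this
  rwa [← h1, mul_assoc, mul_inv_cancel₀ h5, mul_one] at h4

theorem ev_iota {s : K} (hs : s ≠ 0) {f : RatFunc K} (hf : f ∈ Rg s⁻¹) :
    ev s (iota f) = ev s⁻¹ f := by
  obtain ⟨u, v, hv, h⟩ := regAt_iff.1 (mem_rg.1 hf)
  have h1 : ev s (iota (f * algebraMap K[X] (RatFunc K) v)) =
      ev s (iota (algebraMap K[X] (RatFunc K) u)) := by rw [h]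
  rw [map_mul, iota_algebraMap, iota_algebraMap,
    ev_mul (iota_mem_rg hs hf) (eval₂_mem_rg (Xinv_mem_rg hs) v), ev_eval₂ (Xinv_mem_rg hs),
    ev_eval₂ (Xinv_mem_rg hs), ev_Xinv hs] at h1
  rw [ev_of hv h, eq_div_iff hv, h1]

variable [CharZero K]

theorem sub0_mem_rg {s : K} (hs : s ≠ 0) {g : RatFunc K} (hg : RegAt g ((s + s⁻¹) / 2)) :
    sub0 g ∈ Rg s := by
  rw [sub0_eq, div_eq_mul_inv]
  refine (Rg s).mul_mem (eval₂_mem_rg (p0_mem_rg hs) _)
    (inv_mem_rg (eval₂_mem_rg (p0_mem_rg hs) _) ?_)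
  rw [ev_eval₂ (p0_mem_rg hs), ev_p0 hs]
  exact hg

/-- descent of regularity -/
theorem regAt_of_sub0 {s : K} (hs : s ≠ 0) {g : RatFunc K} (hg : sub0 g ∈ Rg s) :
    RegAt g ((s + s⁻¹) / 2) := by
  intro h0
  have h1 : sub0 g * g.denom.eval₂ RatFunc.C p0 = g.num.eval₂ RatFunc.C p0 := by
    rw [← sub0_algebraMap, ← sub0_algebraMap, ← map_mul]
    congr 1
    nth_rw 1 [← RatFunc.num_div_denom g]
    rw [div_mul_cancel₀]
    exact RatFunc.algebraMap_ne_zero g.denom_ne_zero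
  have h2 := congrArg (ev s) h1
  rw [ev_mul hg (eval₂_mem_rg (p0_mem_rg hs) _), ev_eval₂ (p0_mem_rg hs), ev_eval₂ (p0_mem_rg hs),
    ev_p0 hs, h0, mul_zero] at h2
  obtain ⟨a, b, hab⟩ := RatFunc.isCoprime_num_denom g
  have h3 := congrArg (Polynomial.eval ((s + s⁻¹) / 2)) hab
  rw [eval_add, eval_mul, eval_mul, h0, ← h2, mul_zero, mul_zero, add_zero, eval_one] at h3
  exact zero_ne_one h3

theorem sub0_mem_iff {s : K} (hs : s ≠ 0) (g : RatFunc K) :
    sub0 g ∈ Rg s ↔ RegAt g ((s + s⁻¹) / 2) := ⟨regAt_of_sub0 hs, sub0_mem_rg hs⟩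

theorem ev_sub0 {s : K} (hs : s ≠ 0) {g : RatFunc K} (hg : RegAt g ((s + s⁻¹) / 2)) :
    ev s (sub0 g) = ev ((s + s⁻¹) / 2) g := by
  have h1 : sub0 g * g.denom.eval₂ RatFunc.C p0 = g.num.eval₂ RatFunc.C p0 := by
    rw [← sub0_algebraMap, ← sub0_algebraMap, ← map_mul]
    congr 1
    nth_rw 1 [← RatFunc.num_div_denom g]
    rw [div_mul_cancel₀]
    exact RatFunc.algebraMap_ne_zero g.denom_ne_zero
  have h2 := congrArg (ev s) h1
  rw [ev_mul (sub0_mem_rg hs hg) (eval₂_mem_rg (p0_mem_rg hs) _), ev_eval₂ (p0_mem_rg hs),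
    ev_eval₂ (p0_mem_rg hs), ev_p0 hs] at h2
  exact (eq_div_iff hg).2 h2

/-! ### the recursion of the label at a point -/

theorem pin_pz {s : K} (hs : s ≠ 0) (a : ℕ → K) : PIn (Rg s) (pz a (RatFunc.X : RatFunc K)) := by
  intro i
  rw [coeff_pz]
  exact (Rg s).add_mem ((Rg s).mul_mem (regAt_C _ _) (regAt_X s))
    ((Rg s).mul_mem (regAt_C _ _) (Xinv_mem_rg hs))

theorem pin_pz' {s : K} (hs : s ≠ 0) (a : ℕ → K) :
    PIn (Rg s) (pz a (RatFunc.X : RatFunc K)⁻¹) := by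
  intro i
  rw [coeff_pz, inv_inv]
  exact (Rg s).add_mem ((Rg s).mul_mem (regAt_C _ _) (Xinv_mem_rg hs))
    ((Rg s).mul_mem (regAt_C _ _) (regAt_X s))

theorem pin_sub_rg {s : K} (hs : s ≠ 0) {P : PowerSeries (RatFunc K)}
    (hP : PowerSeries.constantCoeff P = p0) (hP1 : PIn (Rg s) P) {f : RatFunc K}
    (hf : RegAt f ((s + s⁻¹) / 2)) : PIn (Rg s) (sub hP f) := by
  refine pin_sub hP (fun c => regAt_C c s) hP1 (inv_mem_rg (eval₂_mem_rg (p0_mem_rg hs) _) ?_)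
  rw [ev_eval₂ (p0_mem_rg hs), ev_p0 hs]
  exact hf

theorem Ln_mem {s : K} (hs : s ≠ 0) {a : ℕ → K} (ha : a 0 = 1) (n : ℕ) (q : Fin n → RatFunc K)
    (hq : ∀ i, RegAt (q i) ((s + s⁻¹) / 2)) : Ln ha n q ∈ Rg s :=
  (Rg s).sum_mem fun i _ => (Rg s).mul_mem ((Rg s).pow_mem (regAt_X s) _)
    (pin_sub_rg hs (cc_pz ha) (pin_pz hs a) (hq i) _)

theorem known_mem {s : K} (hs : s ≠ 0) {a : ℕ → K} (ha : a 0 = 1) (n : ℕ) (q : Fin n → RatFunc K)
    (hq : ∀ i, RegAt (q i) ((s + s⁻¹) / 2)) : known ha n q ∈ Rg s := by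
  refine (Rg s).sub_mem (iota_mem_rg hs ?_) (Ln_mem hs ha n q hq)
  refine Ln_mem (inv_ne_zero hs) ha n q fun i => ?_
  rw [inv_inv, add_comm]
  exact hq i

theorem en_mem {s : K} (hs : s ≠ 0) (n : ℕ) : (en n : RatFunc K) ∈ Rg s :=
  (Rg s).sub_mem ((Rg s).pow_mem (regAt_X s) n) ((Rg s).pow_mem (Xinv_mem_rg hs) n)

theorem ev_en {s : K} (hs : s ≠ 0) (n : ℕ) : ev s (en n : RatFunc K) = s ^ n - s⁻¹ ^ n := by
  rw [en, ev_sub ((Rg s).pow_mem (regAt_X s) n) ((Rg s).pow_mem (Xinv_mem_rg hs) n),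
    ev_pow (regAt_X s), ev_pow (Xinv_mem_rg hs), ev_X, ev_Xinv hs]

theorem ev_en_ne {s : K} (hs : s ≠ 0) {n : ℕ} (h : s ^ (2 * n) ≠ 1) :
    ev s (en n : RatFunc K) ≠ 0 := by
  rw [ev_en hs, sub_ne_zero]
  intro h1
  apply h
  rw [two_mul, pow_add]
  nth_rw 2 [h1]
  rw [← mul_pow, mul_inv_cancel₀ hs, one_pow]

/-- `en n` has a simple zero at a `2n`-th root of unity -/
theorem en_simple {s : K} (hs : s ≠ 0) {n : ℕ} (hn : 1 ≤ n) (h : s ^ (2 * n) = 1) :
    ∃ w ∈ Rg s, ev s w ≠ 0 ∧ (en n : RatFunc K) = (RatFunc.X - RatFunc.C s) * w := by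
  have hX : (RatFunc.X : RatFunc K) ≠ 0 := RatFunc.X_ne_zero
  have h1 : (RatFunc.X ^ (2 * n) - 1 : RatFunc K) =
      (RatFunc.X - RatFunc.C s) * ∑ i ∈ Finset.range (2 * n),
        RatFunc.X ^ i * RatFunc.C s ^ (2 * n - 1 - i) := by
    have := (Commute.all (RatFunc.X : RatFunc K) (RatFunc.C s)).mul_geom_sum₂ (2 * n)
    rw [this, ← map_pow, h, map_one]
  have hm : ∑ i ∈ Finset.range (2 * n), RatFunc.X ^ i * RatFunc.C s ^ (2 * n - 1 - i) ∈ Rg s :=
    (Rg s).sum_mem fun i _ => (Rg s).mul_mem ((Rg s).pow_mem (regAt_X s) _)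
      ((Rg s).pow_mem (regAt_C _ _) _)
  have hv : ev s (∑ i ∈ Finset.range (2 * n), RatFunc.X ^ i * RatFunc.C s ^ (2 * n - 1 - i)) =
      (2 * n : ℕ) * s ^ (2 * n - 1) := by
    rw [ev_sum]
    · rw [Finset.sum_congr rfl (g := fun _ => s ^ (2 * n - 1))]
      · rw [Finset.sum_const, Finset.card_range, nsmul_eq_mul]
      · intro i hi
        rw [ev_mul ((Rg s).pow_mem (regAt_X s) _) ((Rg s).pow_mem (regAt_C _ _) _),
          ev_pow (regAt_X s), ev_pow (regAt_C _ _), ev_X, ev_C, ← pow_add]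
        congr 1
        have := Finset.mem_range.1 hi
        omega
    · exact fun i _ => (Rg s).mul_mem ((Rg s).pow_mem (regAt_X s) _)
        ((Rg s).pow_mem (regAt_C _ _) _)
  refine ⟨(∑ i ∈ Finset.range (2 * n), RatFunc.X ^ i * RatFunc.C s ^ (2 * n - 1 - i)) *
    RatFunc.X⁻¹ ^ n, (Rg s).mul_mem hm ((Rg s).pow_mem (Xinv_mem_rg hs) n), ?_, ?_⟩
  · rw [ev_mul hm ((Rg s).pow_mem (Xinv_mem_rg hs) n), hv, ev_pow (Xinv_mem_rg hs), ev_Xinv hs]
    refine mul_ne_zero (mul_ne_zero ?_ (pow_ne_zero _ hs)) (pow_ne_zero _ (inv_ne_zero hs))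
    exact_mod_cast (by omega : 2 * n ≠ 0)
  · rw [← mul_assoc, ← h1, en]
    have h2 : (RatFunc.X : RatFunc K) ^ (2 * n) * RatFunc.X⁻¹ ^ n = RatFunc.X ^ n := by
      rw [two_mul, pow_add, mul_assoc, ← mul_pow, mul_inv_cancel₀ hX, one_pow, mul_one]
    rw [sub_mul, h2, one_mul]

/-- division by `en n` -/
theorem regAt_of_known {s : K} (hs : s ≠ 0) {n : ℕ} (hn : 1 ≤ n) {g κ : RatFunc K}
    (h : sub0 g * en n = κ) (hκ : κ ∈ Rg s) (h0 : s ^ (2 * n) = 1 → ev s κ = 0) :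
    RegAt g ((s + s⁻¹) / 2) := by
  apply regAt_of_sub0 hs
  have hen : (en n : RatFunc K) ≠ 0 := (ex_en hn).1
  by_cases h1 : s ^ (2 * n) = 1
  · obtain ⟨w, hw, hw0, hw1⟩ := en_simple hs hn h1
    obtain ⟨v, hv, hv1⟩ := exists_of_ev_eq_zero hκ (h0 h1)
    have hXs : (RatFunc.X - RatFunc.C s : RatFunc K) ≠ 0 := by
      intro h2
      rw [hw1, h2, zero_mul] at hen
      exact hen rfl
    have hw2 : w ≠ 0 := by
      rintro rfl
      rw [hw1, mul_zero] at hen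
      exact hen rfl
    have h3 : sub0 g = v * w⁻¹ := by
      rw [eq_mul_inv_iff_mul_eq₀ hw2]
      apply mul_left_cancel₀ hXs
      rw [← hv1, ← h, hw1]
      ring
    rw [h3]
    exact (Rg s).mul_mem hv (inv_mem_rg hw hw0)
  · have h3 : sub0 g = κ * (en n)⁻¹ := by
      rw [eq_mul_inv_iff_mul_eq₀ hen, h]
    rw [h3]
    exact (Rg s).mul_mem hκ (inv_mem_rg (en_mem hs n) (ev_en_ne hs h1))

/-- **(1)** the resonance relation: at a `2n`-th root of unity the label is regular iff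
`known` vanishes -/
theorem label_regAt_iff {a : ℕ → K} (ha : a 0 = 1) {Q : ℕ → RatFunc K} (hQ : IsLabel a Q)
    {s : K} (hs : s ≠ 0) {n : ℕ} (hn : 1 ≤ n) (hreg : ∀ i < n, RegAt (Q i) ((s + s⁻¹) / 2)) :
    RegAt (Q n) ((s + s⁻¹) / 2) ↔
      (s ^ (2 * n) = 1 → ev s (known ha n (fun i => Q i)) = 0) := by
  have h1 := ((isLabel_iff ha Q).1 hQ).2 n hn
  constructor
  · intro h h2
    rw [← h1, ev_mul (sub0_mem_rg hs h) (en_mem hs n), ev_en hs]
    have h3 : s ^ n = s⁻¹ ^ n := by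
      rw [inv_pow]
      exact eq_inv_of_mul_eq_one_left (by rw [← pow_add, ← two_mul, h2])
    rw [h3, sub_self, mul_zero]
  · exact regAt_of_known hs hn h1 (known_mem hs ha n _ fun i => hreg i i.2)

/-- **(2)** no new pole outside the `2n`-th roots of unity, and never at `±1` -/
theorem label_reg_step {a : ℕ → K} (ha : a 0 = 1) {Q : ℕ → RatFunc K} (hQ : IsLabel a Q)
    {s : K} (hs : s ≠ 0) {n : ℕ} (hn : 1 ≤ n) (hreg : ∀ i < n, RegAt (Q i) ((s + s⁻¹) / 2))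
    (h : s ^ (2 * n) = 1 → s ^ 2 = 1) : RegAt (Q n) ((s + s⁻¹) / 2) := by
  rw [label_regAt_iff ha hQ hs hn hreg]
  intro h1
  have h2 : s⁻¹ = s := by
    rw [inv_eq_of_mul_eq_one_right]
    rw [← pow_two, h h1]
  have h3 := known_mem hs ha n (fun i => Q i) fun i => hreg i i.2
  have h4 := congrArg (ev s) (iota_known ha n (fun i => Q i))
  rw [ev_neg h3, ev_iota hs (by rwa [h2]), h2] at h4
  have h5 : (2 : K) * ev s (known ha n fun i => Q i) = 0 := by linear_combination h4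
  exact (mul_eq_zero.1 h5).resolve_left two_ne_zero

/-- **(3)** the label is regular at `(s + s⁻¹)/2` up to order `n` if `s` is not a proper
`2m`-th root of unity, `m ≤ n` -/
theorem label_regAt {a : ℕ → K} (ha : a 0 = 1) {Q : ℕ → RatFunc K} (hQ : IsLabel a Q)
    {s : K} (hs : s ≠ 0) (n : ℕ) (h : ∀ m, 1 ≤ m → m ≤ n → s ^ (2 * m) = 1 → s ^ 2 = 1) :
    RegAt (Q n) ((s + s⁻¹) / 2) := by
  induction n using Nat.strong_induction_on with
  | _ n ih =>
    rcases Nat.eq_zero_or_pos n with rfl | hn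
    · rw [((isLabel_iff ha Q).1 hQ).1]
      exact regAt_X _
    · exact label_reg_step ha hQ hs hn
        (fun i hi => ih i hi fun m hm hmi => h m hm (hmi.trans hi.le)) (h n hn le_rfl)

/-- the label is regular at `1` -/
theorem label_regAt_one {a : ℕ → K} (ha : a 0 = 1) {Q : ℕ → RatFunc K} (hQ : IsLabel a Q) (n : ℕ) :
    RegAt (Q n) 1 := by
  have := label_regAt ha hQ (s := 1) one_ne_zero n (fun _ _ _ _ => by norm_num)
  norm_num at this
  exact this

/-- the label is regular at `-1` -/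
theorem label_regAt_neg_one {a : ℕ → K} (ha : a 0 = 1) {Q : ℕ → RatFunc K} (hQ : IsLabel a Q)
    (n : ℕ) : RegAt (Q n) (-1) := by
  have := label_regAt ha hQ (s := -1) (by norm_num) n (fun _ _ _ _ => by norm_num)
  have h2 : ((-1 : K) + (-1 : K)⁻¹) / 2 = -1 := by norm_num
  rwa [h2] at this

end Vale.Agent.P097.H896.D3
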