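import Vale.Agent.P097.H896.D3.Sub

/-! # P097 / H896 / D3 : the involution `ξ ↦ ξ⁻¹` and its invariants -/

set_option linter.all false

open Polynomial

namespace Vale.Agent.P097.H896.D3

variable {K : Type*} [Field K]

theorem dg_Xinv : Dg (-1) (RatFunc.X⁻¹ : RatFunc K) := Ex.X.inv.dg

/-- the involution -/
noncomputable def iota : RatFunc K →+* RatFunc K :=
  IsLocalization.lift (M := nonZeroDivisors K[X]) (S := RatFunc K)
    (g := Polynomial.eval₂RingHom RatFunc.C RatFunc.X⁻¹) (fun f => by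
      rw [isUnit_iff_ne_zero]
      exact eval₂_ne_zero_of_neg dg_Xinv (inv_ne_zero RatFunc.X_ne_zero) _ _ le_rfl
        (nonZeroDivisors.coe_ne_zero f))

theorem iota_algebraMap (f : K[X]) :
    iota (algebraMap K[X] (RatFunc K) f) = f.eval₂ RatFunc.C RatFunc.X⁻¹ :=
  IsLocalization.lift_eq _ _

theorem iota_C (c : K) : iota (RatFunc.C c) = RatFunc.C c := by
  rw [← RatFunc.algebraMap_C, iota_algebraMap, Polynomial.eval₂_C, RatFunc.algebraMap_C]

theorem iota_X : iota (RatFunc.X : RatFunc K) = RatFunc.X⁻¹ := by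
  rw [← RatFunc.algebraMap_X, iota_algebraMap, Polynomial.eval₂_X, RatFunc.algebraMap_X]

/-- two ring homomorphisms out of `RatFunc K` agreeing on constants and on `X` are equal -/
theorem hom_ext {S : Type*} [CommRing S] {φ ψ : RatFunc K →+* S}
    (hC : ∀ c, φ (RatFunc.C c) = ψ (RatFunc.C c)) (hX : φ RatFunc.X = ψ RatFunc.X) : φ = ψ := by
  apply IsLocalization.ringHom_ext (nonZeroDivisors K[X])
  apply Polynomial.ringHom_ext
  · intro c
    simp only [RingHom.comp_apply, RatFunc.algebraMap_C]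
    exact hC c
  · simp only [RingHom.comp_apply, RatFunc.algebraMap_X]
    exact hX

theorem iota_iota (f : RatFunc K) : iota (iota f) = f := by
  have : (iota.comp iota : RatFunc K →+* RatFunc K) = RingHom.id _ := by
    apply hom_ext
    · intro c; simp [iota_C]
    · simp [iota_X, map_inv₀]
  exact DFunLike.congr_fun this f

theorem iota_p0 : iota (p0 : RatFunc K) = p0 := by
  rw [p0, map_mul, map_add, map_inv₀, iota_C, iota_X, inv_inv, add_comm (RatFunc.X)⁻¹]

variable [CharZero K]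

/-- `f(p) ↦ f(p₀)` -/
noncomputable def sub0 : RatFunc K →+* RatFunc K :=
  IsLocalization.lift (M := nonZeroDivisors K[X]) (S := RatFunc K)
    (g := Polynomial.eval₂RingHom RatFunc.C p0) (fun f => by
      rw [isUnit_iff_ne_zero]
      exact (Ex.p0.eval₂ (nonZeroDivisors.coe_ne_zero f)).1)

theorem sub0_algebraMap (f : K[X]) :
    sub0 (algebraMap K[X] (RatFunc K) f) = f.eval₂ RatFunc.C p0 :=
  IsLocalization.lift_eq _ _

theorem sub0_C (c : K) : sub0 (RatFunc.C c) = RatFunc.C c := by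
  rw [← RatFunc.algebraMap_C, sub0_algebraMap, Polynomial.eval₂_C, RatFunc.algebraMap_C]

theorem sub0_X : sub0 (RatFunc.X : RatFunc K) = p0 := by
  rw [← RatFunc.algebraMap_X, sub0_algebraMap, Polynomial.eval₂_X]

theorem sub0_injective : Function.Injective (sub0 : RatFunc K →+* RatFunc K) := sub0.injective

theorem sub0_ne_zero {f : RatFunc K} (hf : f ≠ 0) : sub0 f ≠ 0 :=
  (map_ne_zero_iff _ sub0_injective).2 hf

theorem constantCoeff_sub {P : PowerSeries (RatFunc K)}
    (hP : PowerSeries.constantCoeff P = p0) (f : RatFunc K) :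
    PowerSeries.constantCoeff (sub hP f) = sub0 f := by
  have : (PowerSeries.constantCoeff.comp (sub hP) : RatFunc K →+* RatFunc K) = sub0 := by
    apply hom_ext
    · intro c
      simp [sub_C, sub0_C]
    · simp [sub_X, sub0_X, hP]
  exact DFunLike.congr_fun this f

theorem sub0_eq (f : RatFunc K) :
    sub0 f = f.num.eval₂ RatFunc.C p0 / f.denom.eval₂ RatFunc.C p0 := by
  nth_rw 1 [← RatFunc.num_div_denom f]
  rw [map_div₀, sub0_algebraMap, sub0_algebraMap]

theorem ex_sub0 {m : ℤ} {f : RatFunc K} (hf : Ex m f) : Ex m (sub0 f) := by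
  rw [sub0_eq, div_eq_mul_inv]
  have h1 : Ex f.num.natDegree (f.num.eval₂ RatFunc.C p0) :=
    Ex.p0.eval₂ (RatFunc.num_ne_zero hf.1)
  have h2 : Ex f.denom.natDegree (f.denom.eval₂ RatFunc.C p0) := Ex.p0.eval₂ f.denom_ne_zero
  have h3 := h1.mul h2.inv
  have h4 := hf.2
  rw [RatFunc.intDegree] at h4
  rwa [← sub_eq_add_neg, h4] at h3

theorem dg_of_sub0 {m : ℤ} {f : RatFunc K} (hf : Dg m (sub0 f)) : Dg m f := by
  by_cases h0 : f = 0
  · exact Or.inl h0
  have h1 : Ex f.intDegree f := ⟨h0, rfl⟩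
  have h2 := ex_sub0 h1
  have h3 := hf.resolve_left h2.1
  rw [h2.2] at h3
  exact Or.inr h3

theorem iota_sub0 (f : RatFunc K) : iota (sub0 f) = sub0 f := by
  have : (iota.comp sub0 : RatFunc K →+* RatFunc K) = sub0 := by
    apply hom_ext
    · intro c
      simp [sub0_C, iota_C]
    · simp [sub0_X, iota_p0]
  exact DFunLike.congr_fun this f

theorem two_p0 : (RatFunc.C 2 : RatFunc K) * p0 = RatFunc.X + RatFunc.X⁻¹ := by
  rw [p0, ← mul_assoc, ← map_mul]
  norm_num

theorem X_sub_inv_ne : (RatFunc.X - RatFunc.X⁻¹ : RatFunc K) ≠ 0 := by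
  have h1 : Ex 1 (RatFunc.X + -RatFunc.X⁻¹ : RatFunc K) :=
    Ex.X.add_dg (Ex.X.inv.neg.dg.mono (by norm_num))
  rw [← sub_eq_add_neg] at h1
  exact h1.1

theorem X_sq : (RatFunc.X * RatFunc.X : RatFunc K) = RatFunc.C 2 * p0 * RatFunc.X - 1 := by
  have hX : (RatFunc.X : RatFunc K) ≠ 0 := RatFunc.X_ne_zero
  rw [two_p0]
  field_simp
  ring

/-- the subfield `K(p₀) + K(p₀) ξ`: every rational function of `ξ` is of this form -/
theorem decomp (f : RatFunc K) : ∃ u v : RatFunc K, f = sub0 u + sub0 v * RatFunc.X := by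
  have hX : (RatFunc.X : RatFunc K) ≠ 0 := RatFunc.X_ne_zero
  have hmul : ∀ f g : RatFunc K, (∃ u v : RatFunc K, f = sub0 u + sub0 v * RatFunc.X) →
      (∃ u v : RatFunc K, g = sub0 u + sub0 v * RatFunc.X) →
      ∃ u v : RatFunc K, f * g = sub0 u + sub0 v * RatFunc.X := by
    rintro f g ⟨u, v, rfl⟩ ⟨u', v', rfl⟩
    refine ⟨u * u' - v * v', u * v' + v * u' + v * v' * (RatFunc.C 2 * RatFunc.X), ?_⟩
    simp only [map_sub, map_mul, map_add, sub0_X, sub0_C]
    have e : (sub0 u + sub0 v * RatFunc.X) * (sub0 u' + sub0 v' * RatFunc.X) =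
        sub0 u * sub0 u' + (sub0 u * sub0 v' + sub0 v * sub0 u') * RatFunc.X +
          sub0 v * sub0 v' * (RatFunc.X * RatFunc.X) := by ring
    rw [e, X_sq]
    ring
  have hpoly : ∀ g : K[X], ∃ u v : RatFunc K,
      algebraMap K[X] (RatFunc K) g = sub0 u + sub0 v * RatFunc.X := by
    intro g
    induction g using Polynomial.induction_on' with
    | add p q hp hq =>
      obtain ⟨u, v, h1⟩ := hp
      obtain ⟨u', v', h2⟩ := hq
      refine ⟨u + u', v + v', ?_⟩
      rw [map_add, h1, h2, map_add, map_add]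
      ring
    | monomial n c =>
      rw [← Polynomial.C_mul_X_pow_eq_monomial, map_mul, map_pow, RatFunc.algebraMap_C,
        RatFunc.algebraMap_X]
      have h1 : ∀ n : ℕ, ∃ u v : RatFunc K, (RatFunc.X : RatFunc K) ^ n = sub0 u + sub0 v * RatFunc.X := by
        intro n
        induction n with
        | zero => exact ⟨1, 0, by simp⟩
        | succ n ih =>
          rw [pow_succ]
          exact hmul _ _ ih ⟨0, 1, by simp⟩
      exact hmul _ _ ⟨RatFunc.C c, 0, by simp [sub0_C]⟩ (h1 n)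
  have hinv : ∀ f : RatFunc K, (∃ u v : RatFunc K, f = sub0 u + sub0 v * RatFunc.X) →
      ∃ u v : RatFunc K, f⁻¹ = sub0 u + sub0 v * RatFunc.X := by
    rintro f ⟨u, v, hf⟩
    by_cases h0 : f = 0
    · exact ⟨0, 0, by simp [h0]⟩
    -- conjugate and norm
    have h1 : iota f = sub0 u + sub0 v * RatFunc.X⁻¹ := by
      rw [hf, map_add, map_mul, iota_sub0, iota_sub0, iota_X]
    have h2 : iota f ≠ 0 := (map_ne_zero_iff (iota : RatFunc K →+* RatFunc K) (RingHom.injective _)).2 h0
    have hinvX : (RatFunc.X⁻¹ : RatFunc K) = RatFunc.C 2 * p0 - RatFunc.X := by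
      rw [two_p0]; ring
    have h3 : f * iota f = sub0 (u ^ 2 + RatFunc.C 2 * RatFunc.X * u * v + v ^ 2) := by
      rw [h1, hf]
      simp only [map_add, map_mul, map_pow, sub0_X, sub0_C, two_p0]
      field_simp
      ring
    have h4 : f⁻¹ = sub0 (u ^ 2 + RatFunc.C 2 * RatFunc.X * u * v + v ^ 2)⁻¹ * iota f := by
      rw [map_inv₀, ← h3]
      field_simp
    rw [h4]
    refine hmul _ _ ⟨(u ^ 2 + RatFunc.C 2 * RatFunc.X * u * v + v ^ 2)⁻¹, 0, ?_⟩ ?_
    · rw [map_zero, zero_mul, add_zero]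
    rw [h1, hinvX]
    refine ⟨u + RatFunc.C 2 * RatFunc.X * v, -v, ?_⟩
    simp only [map_add, map_mul, map_neg, sub0_X, sub0_C]
    ring
  rw [← RatFunc.num_div_denom f, div_eq_mul_inv]
  exact hmul _ _ (hpoly _) (hinv _ (hpoly _))

/-- invariants of the involution are rational functions of `p₀` -/
theorem exists_sub0 {f : RatFunc K} (hf : iota f = f) : ∃ g : RatFunc K, sub0 g = f := by
  obtain ⟨u, v, h⟩ := decomp f
  have h1 : iota f = sub0 u + sub0 v * RatFunc.X⁻¹ := by
    rw [h, map_add, map_mul, iota_sub0, iota_sub0, iota_X]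
  have h2 : sub0 v * (RatFunc.X - RatFunc.X⁻¹) = 0 := by
    have : sub0 u + sub0 v * RatFunc.X = sub0 u + sub0 v * RatFunc.X⁻¹ := by
      rw [← h, ← h1, hf]
    linear_combination this
  have h3 : sub0 v = 0 := (mul_eq_zero.1 h2).resolve_right X_sub_inv_ne
  exact ⟨u, by rw [h, h3, zero_mul, add_zero]⟩

end Vale.Agent.P097.H896.D3
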