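import Vale.Agent.P097.Disc.Defs
import Vale.Agent.P097.H896.D3.Sym

/-! # P097 / H896 / D3 : the label of the invariant foliation: block [LAB] -/

set_option linter.all false

open Polynomial

namespace Vale.Agent.P097.H896.D3

open Vale.Agent.P097.Disc

variable {K : Type*} [Field K] [CharZero K]

theorem coeff_pz (a : ℕ → K) (x : RatFunc K) (n : ℕ) :
    PowerSeries.coeff n (pz a x) = RatFunc.C (Ac a n) * x + RatFunc.C (Bc a n) * x⁻¹ := by
  rw [pz, PowerSeries.coeff_mk, RatFunc.algebraMap_eq_C]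

theorem cc_pz {a : ℕ → K} (ha : a 0 = 1) :
    PowerSeries.constantCoeff (pz a (RatFunc.X : RatFunc K)) = p0 := by
  rw [← PowerSeries.coeff_zero_eq_constantCoeff_apply, coeff_pz, p0, Ac, Bc, ha]
  simp only [Nat.cast_zero, add_zero, sub_zero, one_mul]
  ring

theorem cc_pz' {a : ℕ → K} (ha : a 0 = 1) :
    PowerSeries.constantCoeff (pz a (RatFunc.X : RatFunc K)⁻¹) = p0 := by
  rw [← PowerSeries.coeff_zero_eq_constantCoeff_apply, coeff_pz, p0, Ac, Bc, ha, inv_inv]
  simp only [Nat.cast_zero, add_zero, sub_zero, one_mul]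
  ring

theorem aeval_eq_subPoly (P : PowerSeries (RatFunc K)) (f : K[X]) :
    Polynomial.aeval P f = subPoly P f := by
  rw [Polynomial.aeval_def, subPoly, Polynomial.coe_eval₂RingHom]
  congr 1
  refine RingHom.ext fun c => ?_
  rw [PowerSeries.algebraMap_apply, RatFunc.algebraMap_eq_C, RingHom.comp_apply]

theorem evR_eq {P : PowerSeries (RatFunc K)} (hP : PowerSeries.constantCoeff P = p0)
    (r : RatFunc K) : evR r P = sub hP r := by
  rw [evR, sub_eq, aeval_eq_subPoly, aeval_eq_subPoly]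

theorem map_iota_pz (a : ℕ → K) :
    PowerSeries.map iota (pz a (RatFunc.X : RatFunc K)) = pz a (RatFunc.X : RatFunc K)⁻¹ := by
  ext n
  rw [PowerSeries.coeff_map, coeff_pz, coeff_pz, map_add, map_mul, map_mul, iota_C, iota_C,
    map_inv₀, iota_X]

theorem map_iota_sub {a : ℕ → K} (ha : a 0 = 1) (f : RatFunc K) :
    PowerSeries.map iota (sub (cc_pz ha) f) = sub (cc_pz' ha) f := by
  have : ((PowerSeries.map iota).comp (sub (cc_pz ha)) : RatFunc K →+* PowerSeries (RatFunc K)) =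
      sub (cc_pz' ha) := by
    apply hom_ext
    · intro c
      simp [sub_C, iota_C]
    · rw [RingHom.comp_apply, sub_X, sub_X, map_iota_pz]
  exact DFunLike.congr_fun this f

theorem Wn_inv {a : ℕ → K} (ha : a 0 = 1) (Q : ℕ → RatFunc K) (n : ℕ) :
    Wn a Q (RatFunc.X : RatFunc K)⁻¹ n = iota (Wn a Q (RatFunc.X : RatFunc K) n) := by
  rw [Wn, Wn, map_sum]
  refine Finset.sum_congr rfl fun i _ => ?_
  rw [map_mul, map_pow, iota_X, evR_eq (cc_pz ha), evR_eq (cc_pz' ha), ← map_iota_sub ha,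
    PowerSeries.coeff_map]

/-- the part of `Wn` which does not contain `Q n` -/
noncomputable def Ln {a : ℕ → K} (ha : a 0 = 1) (n : ℕ) (q : Fin n → RatFunc K) : RatFunc K :=
  ∑ i : Fin n, RatFunc.X ^ (i : ℕ) * PowerSeries.coeff (n - i) (sub (cc_pz ha) (q i))

theorem Wn_eq {a : ℕ → K} (ha : a 0 = 1) (Q : ℕ → RatFunc K) (n : ℕ) :
    Wn a Q (RatFunc.X : RatFunc K) n =
      Ln ha n (fun i => Q i) + RatFunc.X ^ n * sub0 (Q n) := by
  rw [Wn, Finset.sum_range_succ, Ln, Finset.sum_range (fun i =>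
    (RatFunc.X : RatFunc K) ^ i * PowerSeries.coeff (n - i) (evR (Q i) (pz a RatFunc.X)))]
  congr 1
  · refine Finset.sum_congr rfl fun i _ => ?_
    rw [evR_eq (cc_pz ha)]
  · rw [Nat.sub_self, evR_eq (cc_pz ha), PowerSeries.coeff_zero_eq_constantCoeff_apply,
      constantCoeff_sub]

/-- `ξ ^ n - ξ ^ (-n)` -/
noncomputable def en (n : ℕ) : RatFunc K := RatFunc.X ^ n - RatFunc.X⁻¹ ^ n

theorem ex_en {n : ℕ} (hn : 1 ≤ n) : Ex n (en n : RatFunc K) := by
  rw [en, sub_eq_add_neg]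
  have h1 : Ex n ((RatFunc.X : RatFunc K) ^ n) := by
    have := (Ex.X (K := K)).pow n
    rwa [mul_one] at this
  have h2 : Dg (n - 1) (-(RatFunc.X⁻¹ : RatFunc K) ^ n) := by
    have := ((dg_Xinv (K := K)).pow n).neg
    refine this.mono ?_
    have : (1 : ℤ) ≤ n := by exact_mod_cast hn
    linarith
  exact h1.add_dg h2

theorem iota_en (n : ℕ) : iota (en n : RatFunc K) = -en n := by
  rw [en, map_sub, map_pow, map_pow, iota_X, map_inv₀, iota_X, inv_inv]
  ring

/-- `known_n = ι L_n - L_n` -/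
noncomputable def known {a : ℕ → K} (ha : a 0 = 1) (n : ℕ) (q : Fin n → RatFunc K) : RatFunc K :=
  iota (Ln ha n q) - Ln ha n q

theorem iota_known {a : ℕ → K} (ha : a 0 = 1) (n : ℕ) (q : Fin n → RatFunc K) :
    iota (known ha n q) = -known ha n q := by
  rw [known, map_sub, iota_iota]
  ring

theorem exists_step {a : ℕ → K} (ha : a 0 = 1) {n : ℕ} (hn : 1 ≤ n) (q : Fin n → RatFunc K) :
    ∃ g : RatFunc K, sub0 g * en n = known ha n q := by
  have h0 : (en n : RatFunc K) ≠ 0 := (ex_en hn).1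
  obtain ⟨g, hg⟩ := exists_sub0 (f := known ha n q / en n) (by
    rw [map_div₀, iota_known, iota_en, neg_div_neg_eq])
  exact ⟨g, by rw [hg, div_mul_cancel₀ _ h0]⟩

open Classical in
/-- one step of the recursion -/
noncomputable def step {a : ℕ → K} (ha : a 0 = 1) (n : ℕ) (q : Fin n → RatFunc K) : RatFunc K :=
  if hn : 1 ≤ n then Classical.choose (exists_step ha hn q) else RatFunc.X

theorem step_spec {a : ℕ → K} (ha : a 0 = 1) {n : ℕ} (hn : 1 ≤ n) (q : Fin n → RatFunc K) :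
    sub0 (step ha n q) * en n = known ha n q := by
  rw [step, dif_pos hn]
  exact Classical.choose_spec (exists_step ha hn q)

/-- the label -/
noncomputable def lab {a : ℕ → K} (ha : a 0 = 1) : ℕ → RatFunc K
  | n => step ha n fun i : Fin n => lab ha i.1
termination_by n => n
decreasing_by exact i.2

theorem lab_zero {a : ℕ → K} (ha : a 0 = 1) : lab ha 0 = RatFunc.X := by
  rw [lab, step, dif_neg (by norm_num)]

theorem lab_spec {a : ℕ → K} (ha : a 0 = 1) {n : ℕ} (hn : 1 ≤ n) :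
    sub0 (lab ha n) * en n = known ha n (fun i => lab ha i) := by
  rw [lab]
  exact step_spec ha hn _

theorem isLabel_iff {a : ℕ → K} (ha : a 0 = 1) (Q : ℕ → RatFunc K) :
    IsLabel a Q ↔ Q 0 = RatFunc.X ∧
      ∀ n, 1 ≤ n → sub0 (Q n) * en n = known ha n (fun i => Q i) := by
  have key : ∀ n, Wn a Q (RatFunc.X : RatFunc K) n = Wn a Q (RatFunc.X : RatFunc K)⁻¹ n ↔
      sub0 (Q n) * en n = known ha n (fun i => Q i) := by
    intro n
    rw [Wn_inv ha, Wn_eq ha, map_add, map_mul, map_pow, iota_X, iota_sub0, known, en]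
    constructor
    · intro h; linear_combination h
    · intro h; linear_combination h
  constructor
  · rintro ⟨h0, h⟩
    exact ⟨h0, fun n _ => (key n).1 (h n)⟩
  · rintro ⟨h0, h⟩
    refine ⟨h0, fun n => ?_⟩
    rcases Nat.eq_zero_or_pos n with rfl | hn
    · rw [key 0, en, pow_zero, pow_zero, sub_self, mul_zero, known, Ln]
      simp
    · exact (key n).2 (h n hn)

theorem isLabel_lab {a : ℕ → K} (ha : a 0 = 1) : IsLabel a (lab ha) :=
  (isLabel_iff ha _).2 ⟨lab_zero ha, fun n hn => lab_spec ha hn⟩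

theorem isLabel_unique {a : ℕ → K} (ha : a 0 = 1) {Q Q' : ℕ → RatFunc K} (hQ : IsLabel a Q)
    (hQ' : IsLabel a Q') : Q' = Q := by
  rw [isLabel_iff ha] at hQ hQ'
  funext n
  induction n using Nat.strong_induction_on with
  | _ n ih =>
    rcases Nat.eq_zero_or_pos n with rfl | hn
    · rw [hQ.1, hQ'.1]
    · have h1 := hQ.2 n hn
      have h2 := hQ'.2 n hn
      have h3 : (fun i : Fin n => Q' i) = fun i : Fin n => Q i := by
        funext i
        exact ih i i.2
      rw [h3, ← h1] at h2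
      exact sub0_injective (mul_right_cancel₀ (ex_en (K := K) hn).1 h2)

/-! ### growth -/

theorem pdg_pz (a : ℕ → K) : PDg 1 (pz a (RatFunc.X : RatFunc K)) := by
  intro i
  rw [coeff_pz]
  have h1 := (Dg.C (Ac a i)).mul (Ex.X (K := K)).dg
  have h2 := (Dg.C (Bc a i)).mul (dg_Xinv (K := K))
  exact (h1.mono (by norm_num)).add (h2.mono (by norm_num))

theorem pdg_pz' (a : ℕ → K) : PDg 1 (pz a (RatFunc.X : RatFunc K)⁻¹) := by
  intro i
  rw [coeff_pz, inv_inv]
  have h1 := (Dg.C (Bc a i)).mul (Ex.X (K := K)).dg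
  have h2 := (Dg.C (Ac a i)).mul (dg_Xinv (K := K))
  exact (h2.mono (by norm_num)).add (h1.mono (by norm_num))

theorem dg_Ln {a : ℕ → K} (ha : a 0 = 1) (n : ℕ) (q : Fin n → RatFunc K)
    (hq : ∀ i : Fin n, Dg (1 - (i : ℤ)) (q i)) : Dg 1 (Ln ha n q) := by
  refine Dg.sum _ _ fun i _ => ?_
  have h1 := pdg_sub (cc_pz ha) (pdg_pz a) (hq i) (n - i)
  have h2 := (Ex.X (K := K)).dg.pow (i : ℕ)
  refine (h2.mul h1).mono ?_
  linarith

theorem dg_iota_Ln {a : ℕ → K} (ha : a 0 = 1) (n : ℕ) (q : Fin n → RatFunc K)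
    (hq : ∀ i : Fin n, Dg (1 - (i : ℤ)) (q i)) : Dg 1 (iota (Ln ha n q)) := by
  rw [Ln, map_sum]
  refine Dg.sum _ _ fun i _ => ?_
  rw [map_mul, map_pow, iota_X, ← PowerSeries.coeff_map, map_iota_sub ha]
  have h1 := pdg_sub (cc_pz' ha) (pdg_pz' a) (hq i) (n - i)
  have h2 := (dg_Xinv (K := K)).pow (i : ℕ)
  refine (h2.mul h1).mono ?_
  have : (0 : ℤ) ≤ (i : ℕ) := Int.natCast_nonneg _
  linarith

theorem dg_label {a : ℕ → K} (ha : a 0 = 1) {Q : ℕ → RatFunc K} (hQ : IsLabel a Q) (n : ℕ) :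
    Dg (1 - (n : ℤ)) (Q n) := by
  rw [isLabel_iff ha] at hQ
  induction n using Nat.strong_induction_on with
  | _ n ih =>
    rcases Nat.eq_zero_or_pos n with rfl | hn
    · rw [hQ.1]
      simpa using (Ex.X (K := K)).dg
    · have h1 := hQ.2 n hn
      have h2 : Dg 1 (known ha n (fun i => Q i)) :=
        (dg_iota_Ln ha n _ fun i => ih i i.2).sub (dg_Ln ha n _ fun i => ih i i.2)
      rw [← h1] at h2
      have h3 : Dg (1 - (n : ℤ)) (sub0 (Q n)) := by
        have h4 := h2.mul (ex_en (K := K) hn).inv.dg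
        rw [mul_assoc, mul_inv_cancel₀ (ex_en (K := K) hn).1, mul_one] at h4
        exact h4
      exact dg_of_sub0 h3

/-- **Block [LAB].** -/
theorem LAB_proof : LAB := by
  intro k _ _ a ha _
  refine ⟨lab ha, isLabel_lab ha, fun Q' hQ' => isLabel_unique ha (isLabel_lab ha) hQ', ?_⟩
  intro n _
  exact dg_label ha (isLabel_lab ha) n

end Vale.Agent.P097.H896.D3
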