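import Vale.Agent.P097.H896.D3.Base

/-! # P097 / H896 / D3 : poles of the label -/

set_option linter.all false

open Polynomial

namespace Vale.Agent.P097.H896.D3

open Vale.Agent.P097.Disc

/-! ### denominators and base change -/

section den

variable {K K' : Type*} [Field K] [Field K']

theorem denom_rmap (σ : K →+* K') (f : RatFunc K) : (rmap σ f).denom = f.denom.map σ := by
  have hm : (f.denom.map σ).Monic := (RatFunc.monic_denom f).map σ
  have h0 : f.denom.map σ ≠ 0 := hm.ne_zero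
  have h1 : rmap σ f = algebraMap K'[X] (RatFunc K') (f.num.map σ) /
      algebraMap K'[X] (RatFunc K') (f.denom.map σ) := by
    rw [← rmap_algebraMap, ← rmap_algebraMap, ← map_div₀, RatFunc.num_div_denom]
  have hc : IsCoprime (f.num.map σ) (f.denom.map σ) := by
    have := (RatFunc.isCoprime_num_denom f).map (Polynomial.mapRingHom σ)
    simpa using this
  have h2 : (rmap σ f).denom ∣ f.denom.map σ := by rw [h1]; exact RatFunc.denom_div_dvd _ _
  have h3 : f.denom.map σ ∣ (rmap σ f).denom := by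
    have h4 : (rmap σ f).num * f.denom.map σ = f.num.map σ * (rmap σ f).denom := by
      apply RatFunc.algebraMap_injective K'
      rw [map_mul, map_mul]
      have h5 := RatFunc.num_div_denom (rmap σ f)
      rw [h1] at h5
      rw [div_eq_div_iff (RatFunc.algebraMap_ne_zero (RatFunc.denom_ne_zero _))
        (RatFunc.algebraMap_ne_zero h0)] at h5
      rw [h1]
      exact h5
    exact hc.symm.dvd_of_dvd_mul_left ⟨(rmap σ f).num, by rw [← h4, mul_comm]⟩
  exact Polynomial.eq_of_monic_of_associated (RatFunc.monic_denom _) hm (associated_of_dvd_dvd h2 h3)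

/-- regularity of the base change at an arbitrary point of the larger field -/
theorem regAt_rmap_iff (σ : K →+* K') (f : RatFunc K) (c : K') :
    RegAt (rmap σ f) c ↔ f.denom.eval₂ σ c ≠ 0 := by
  rw [RegAt, denom_rmap, Polynomial.eval_map]

end den

/-! ### Chebyshev polynomials of the second kind -/

section cheb

variable {K : Type*} [Field K] [CharZero K]

theorem cheb_U (x : K) (hx : x ≠ 0) (n : ℕ) :
    (x - x⁻¹) * (Polynomial.Chebyshev.U K ((n : ℤ) - 1)).eval ((x + x⁻¹) / 2) =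
      x ^ n - x⁻¹ ^ n := by
  induction n using Nat.twoStepInduction with
  | zero =>
    simp [Polynomial.Chebyshev.U_neg_one]
  | one =>
    simp [Polynomial.Chebyshev.U_zero]
  | more n h1 h2 =>
    have e : ((n + 2 : ℕ) : ℤ) - 1 = ((n : ℤ) - 1) + 2 := by push_cast; ring
    have e' : ((n + 1 : ℕ) : ℤ) - 1 = ((n : ℤ) - 1) + 1 := by push_cast; ring
    rw [e'] at h2
    rw [e, Polynomial.Chebyshev.U_add_two]
    simp only [eval_sub, eval_mul, eval_ofNat, eval_X]
    have e2 : (x - x⁻¹) * (2 * ((x + x⁻¹) / 2) *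
        (Polynomial.Chebyshev.U K ((n : ℤ) - 1 + 1)).eval ((x + x⁻¹) / 2) -
        (Polynomial.Chebyshev.U K ((n : ℤ) - 1)).eval ((x + x⁻¹) / 2)) =
        (x + x⁻¹) * ((x - x⁻¹) *
          (Polynomial.Chebyshev.U K ((n : ℤ) - 1 + 1)).eval ((x + x⁻¹) / 2)) -
        (x - x⁻¹) * (Polynomial.Chebyshev.U K ((n : ℤ) - 1)).eval ((x + x⁻¹) / 2) := by ring
    rw [e2, h1, h2]
    simp only [inv_pow]
    field_simp
    ring

theorem cheb_U_eq_zero {x : K} (hx : x ≠ 0) (hx2 : x ^ 2 ≠ 1) {n : ℕ} (h : x ^ (2 * n) = 1) :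
    (Polynomial.Chebyshev.U K ((n : ℤ) - 1)).eval ((x + x⁻¹) / 2) = 0 := by
  have h1 := cheb_U x hx n
  have h2 : x ^ n = x⁻¹ ^ n := by
    rw [inv_pow]
    exact eq_inv_of_mul_eq_one_left (by rw [← pow_add, ← two_mul, h])
  rw [h2, sub_self] at h1
  refine (mul_eq_zero.1 h1).resolve_left fun h3 => hx2 ?_
  rw [sub_eq_zero] at h3
  rw [pow_two]
  nth_rw 1 [h3]
  exact inv_mul_cancel₀ hx

/-- the points of the projective line are of the form `(x + x⁻¹) / 2` -/
theorem exists_half [IsAlgClosed K] (c : K) : ∃ x : K, x ≠ 0 ∧ c = (x + x⁻¹) / 2 := by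
  obtain ⟨d, hd⟩ := IsAlgClosed.exists_pow_nat_eq (c ^ 2 - 1) (n := 2) (by norm_num)
  have h1 : (c + d) * (c - d) = 1 := by linear_combination -hd
  have h0 : c + d ≠ 0 := left_ne_zero_of_mul_eq_one h1
  refine ⟨c + d, h0, ?_⟩
  rw [inv_eq_of_mul_eq_one_right h1]
  ring

/-- **poles of the label**, over an algebraically closed field -/
theorem exists_of_not_regAt [IsAlgClosed K] {a : ℕ → K} (ha : a 0 = 1) {Q : ℕ → RatFunc K}
    (hQ : IsLabel a Q) {n : ℕ} {c : K} (h : ¬ RegAt (Q n) c) :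
    ∃ x : K, x ≠ 0 ∧ c = (x + x⁻¹) / 2 ∧ x ^ 2 ≠ 1 ∧ ∃ m, 1 ≤ m ∧ m ≤ n ∧ x ^ (2 * m) = 1 := by
  obtain ⟨x, hx, rfl⟩ := exists_half c
  refine ⟨x, hx, rfl, ?_⟩
  by_contra hcon
  apply h
  refine label_regAt ha hQ hx n fun m hm hmn h1 => ?_
  by_contra h2
  exact hcon ⟨h2, m, hm, hmn, h1⟩

/-- **poles of the label**, over an arbitrary field of characteristic zero -/
theorem exists_cheb_of_not_regAt {a : ℕ → K} (ha : a 0 = 1) {Q : ℕ → RatFunc K}
    (hQ : IsLabel a Q) {n : ℕ} {c : K} (h : ¬ RegAt (Q n) c) :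
    ∃ m : ℕ, 1 ≤ m ∧ m ≤ n ∧ (Polynomial.Chebyshev.U K ((m : ℤ) - 1)).eval c = 0 := by
  let σ : K →+* AlgebraicClosure K := algebraMap K (AlgebraicClosure K)
  haveI : CharZero (AlgebraicClosure K) := charZero_of_injective_algebraMap σ.injective
  have hQ' := isLabel_rmap σ ha hQ
  have h' : ¬ RegAt (rmap σ (Q n)) (σ c) := by rwa [regAt_rmap]
  obtain ⟨x, hx, hc, hx2, m, hm, hmn, h1⟩ :=
    exists_of_not_regAt (a := fun j => σ (a j)) (ha_map σ ha) hQ' h'
  refine ⟨m, hm, hmn, σ.injective ?_⟩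
  rw [map_zero, ← cheb_U_eq_zero hx hx2 h1, ← hc, ← Polynomial.Chebyshev.map_U σ,
    Polynomial.eval_map_apply]

/-- the poles of the label up to order `n` are roots of one polynomial -/
theorem exists_poly_of_label {a : ℕ → K} (ha : a 0 = 1) {Q : ℕ → RatFunc K}
    (hQ : IsLabel a Q) (n : ℕ) :
    ∀ i ≤ n, ∀ c, ¬ RegAt (Q i) c →
      (∏ m ∈ Finset.Icc 1 n, Polynomial.Chebyshev.U K ((m : ℤ) - 1)).eval c = 0 := by
  intro i hi c hc
  obtain ⟨m, hm, hmn, h⟩ := exists_cheb_of_not_regAt ha hQ hc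
  rw [Polynomial.eval_prod]
  exact Finset.prod_eq_zero (Finset.mem_Icc.2 ⟨hm, hmn.trans hi⟩) h

/-- last step of **[D2]**: an endomorphism fixing the table moves regular points to regular
points -/
theorem regAt_of_fixed {a : ℕ → K} (ha : a 0 = 1) {Q : ℕ → RatFunc K} (hQ : IsLabel a Q)
    (σ : K →+* K) {n : ℕ} (h : ∀ j ≤ n, σ (a j) = a j) {c : K} :
    RegAt (Q n) (σ c) ↔ RegAt (Q n) c := by
  have h1 : rmap σ (Q n) = Q n :=
    label_congr (a := fun j => σ (a j)) (ha_map σ ha) ha (isLabel_rmap σ ha hQ) hQ n h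
  rw [← regAt_rmap (σ := σ) (f := Q n) (c := c), h1]

end cheb

/-! ### over `ℂ` -/

theorem exists_cos_of_not_regAt {a : ℕ → ℂ} (ha : a 0 = 1) {Q : ℕ → RatFunc ℂ}
    (hQ : IsLabel a Q) {n : ℕ} {c : ℂ} (h : ¬ RegAt (Q n) c) :
    ∃ m k : ℕ, 0 < k ∧ k < m ∧ m ≤ n ∧ c = (Real.cos (Real.pi * k / m) : ℝ) := by
  obtain ⟨x, hx, hc, hx2, m, hm, hmn, h1⟩ := exists_of_not_regAt ha hQ h
  have hm0 : m ≠ 0 := by omega
  have h2m : 2 * m ≠ 0 := by omega
  haveI : NeZero (2 * m) := ⟨h2m⟩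
  have hmr : (m : ℝ) ≠ 0 := Nat.cast_ne_zero.2 hm0
  obtain ⟨i, hi, hix⟩ := (Complex.isPrimitiveRoot_exp (2 * m) h2m).eq_pow_of_pow_eq_one h1
  have hx' : x = Complex.exp (Complex.I * (Real.pi * i / m : ℝ)) := by
    rw [← hix, ← Complex.exp_nat_mul]
    congr 1
    push_cast
    field_simp
  have hc' : c = (Real.cos (Real.pi * i / m) : ℝ) := by
    rw [hc, Complex.ofReal_cos, Complex.cos, hx', ← Complex.exp_neg]
    congr 2
    · rw [mul_comm]
    · rw [mul_comm]
      congr 1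
      ring
  rcases Nat.eq_zero_or_pos i with rfl | hi0
  · exfalso
    apply hx2
    rw [← hix, pow_zero, one_pow]
  by_cases him : i < m
  · exact ⟨m, i, hi0, him, hmn, hc'⟩
  by_cases him' : i = m
  · exfalso
    apply hx2
    rw [hx', him']
    have : (Real.pi * m / m : ℝ) = Real.pi := by field_simp
    rw [this, mul_comm, Complex.exp_pi_mul_I]
    norm_num
  · refine ⟨m, 2 * m - i, by omega, by omega, hmn, ?_⟩
    rw [hc']
    congr 1
    have h3 : ((2 * m - i : ℕ) : ℝ) = 2 * m - i := by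
      rw [Nat.cast_sub hi.le]
      push_cast
      ring
    rw [h3]
    have h4 : Real.pi * (2 * m - i) / m = 2 * Real.pi - Real.pi * i / m := by
      field_simp
    rw [h4, Real.cos_two_pi_sub]

end Vale.Agent.P097.H896.D3
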