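import Vale.Agent.P097.H323.D2.NT
import Vale.Agent.P097.H323.D2.Asm
import Vale.Agent.P097.H896.D3.Poles

/-! # P097 / Disc / D2 : the blocks [F2], [POLE], [BC] (helper896) -/

set_option linter.all false

open Polynomial

namespace Vale.Agent.P097.H896.D3

open Vale.Agent.P097.Disc Vale.Agent.P097.D2

theorem pole : POLE := by
  intro a Q ha hQ i c h
  obtain ⟨x, hx, hc, -, m, hm, -, h1⟩ := exists_of_not_regAt ha hQ h
  exact ⟨x, hx, hc, m, hm, h1⟩

theorem bc : BC := by
  intro K
  refine ⟨rmap K.subtype, fun f => rmap_algebraMap _ _, fun a Q ha hQ => ?_⟩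
  exact isLabel_rmap K.subtype ha hQ

theorem f2 : F2 := by
  intro K m hm n d hnd w hw
  set N : ℕ := 2 * m with hN
  have hN0 : N ≠ 0 := by omega
  haveI : NeZero N := ⟨hN0⟩
  set ζ : ℂ := Complex.exp (2 * Real.pi * Complex.I / N) with hζd
  have hζ : IsPrimitiveRoot ζ N := Complex.isPrimitiveRoot_exp N hN0
  have hint : IsIntegral K ζ := (hζ.isIntegral (Nat.pos_of_ne_zero hN0)).tower_top
  haveI hcyc : IsCyclotomicExtension {N} K (IntermediateField.adjoin K {ζ}) := by
    change IsCyclotomicExtension {N} K (IntermediateField.adjoin K {ζ}).toSubalgebra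
    rw [IntermediateField.adjoin_simple_toSubalgebra_of_isAlgebraic hint.isAlgebraic]
    exact hζ.adjoin_isCyclotomicExtension K
  set E := IntermediateField.adjoin K {ζ} with hE
  haveI : IsGalois K E := IsCyclotomicExtension.isGalois {N} K E
  haveI : FiniteDimensional K E := IsCyclotomicExtension.finiteDimensional {N} K E
  set z : E := ⟨ζ, IntermediateField.mem_adjoin_simple_self K ζ⟩ with hz
  have hzζ : (z : ℂ) = ζ := rfl
  have hzp : IsPrimitiveRoot z N := by
    refine IsPrimitiveRoot.of_map_of_injective (f := algebraMap E ℂ) ?_ (algebraMap E ℂ).injective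
    exact hζ
  let C : ℕ → E := fun p => (z ^ p + (z ^ p)⁻¹) / 2
  have hm0 : (m : ℂ) ≠ 0 := by exact_mod_cast (by omega : m ≠ 0)
  have hC : ∀ p, (C p : ℂ) = (Real.cos (Real.pi * p / m) : ℂ) := by
    intro p
    have h1 : ζ ^ p = Complex.exp (Complex.I * ((Real.pi * p / m : ℝ) : ℂ)) := by
      rw [hζd, ← Complex.exp_nat_mul]
      congr 1
      rw [hN]
      push_cast
      field_simp
    rw [← exp_half, ← h1]
    have h2 : ((2 : E) : ℂ) = 2 := rfl
    simp [C, hzζ, h2]
  have hev : ∀ (p : ℕ) (f : K[X]), ((aeval (C p) f : E) : ℂ) =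
      aeval (Real.cos (Real.pi * p / m) : ℂ) f := by
    intro p f
    rw [← hC]
    exact (Polynomial.aeval_algebraMap_apply ℂ (C p) f).symm
  -- the denominators do not vanish
  have hd : ∀ p : ℕ, 0 < p → p * p ≤ N → aeval (C p) d ≠ 0 := by
    intro p hp hpN h0
    have h1 := hw p hp hpN
    rw [← hev, ← hev, h0] at h1
    have h2 : aeval (C p) n = 0 := by
      apply Subtype.ext
      rw [h1]
      simp
    obtain ⟨u, v, huv⟩ := hnd
    have h3 := congrArg (aeval (C p)) huv
    rw [map_add, map_mul, map_mul, h0, h2, mul_zero, mul_zero, add_zero, map_one] at h3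
    exact zero_ne_one h3
  set w' : E := aeval (C 1) n / aeval (C 1) d with hw'
  have hww : (w' : ℂ) = w := by
    have h0 := hd 1 one_pos (by omega)
    have h1 := hw 1 one_pos (by omega)
    rw [← hev, ← hev] at h1
    have h2 : ((aeval (C 1) d : E) : ℂ) ≠ 0 := by
      intro h; exact h0 (Subtype.ext (by rw [h]; rfl))
    rw [hw', IntermediateField.coe_div, h1, mul_div_assoc, div_self h2, mul_one]
  have hwp : ∀ p : ℕ, 0 < p → p * p ≤ N → aeval (C p) n = w' * aeval (C p) d := by
    intro p hp hpN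
    apply Subtype.ext
    rw [IntermediateField.coe_mul, hww, hev, hev]
    exact hw p hp hpN
  have hfix : ∀ σ : E ≃ₐ[K] E, σ w' = w' := by
    intro σ
    have h1 : IsPrimitiveRoot (σ z) N := hzp.map_of_injective σ.injective
    obtain ⟨u, huN, hu⟩ := hzp.eq_pow_of_pow_eq_one h1.pow_eq_one
    have hcop : Nat.Coprime u N := by
      rw [← hu] at h1
      exact (hzp.pow_iff_coprime (Nat.pos_of_ne_zero hN0) u).1 h1
    obtain ⟨p, p', hp, hp', hpN, hpN', h2⟩ := th N u (by omega) hcop
    have hCC : σ (C p) = C p' := by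
      have h3 : σ (C p) = (z ^ (u * p) + (z ^ (u * p))⁻¹) / 2 := by
        simp only [C]
        rw [map_div₀, map_add, map_inv₀, map_pow, ← hu, ← pow_mul, map_ofNat]
      rw [h3]
      rcases h2 with h2 | h2
      · have h4 : z ^ (u * p) = z ^ p' := by
          rw [pow_eq_pow_mod (u * p) hzp.pow_eq_one, pow_eq_pow_mod p' hzp.pow_eq_one]
          congr 1
        rw [h4]
      · have h4 : z ^ (u * p) * z ^ p' = 1 := by
          rw [← pow_add]
          have := (Nat.modEq_zero_iff_dvd.1 h2)
          exact (hzp.pow_eq_one_iff_dvd _).2 this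
        have h5 : z ^ (u * p) = (z ^ p')⁻¹ := eq_inv_of_mul_eq_one_left h4
        rw [h5, inv_inv, add_comm]
    have h6 : aeval (C p') n = σ w' * aeval (C p') d := by
      have h7 := congrArg σ (hwp p hp hpN)
      rw [map_mul] at h7
      have h8 : ∀ f : K[X], σ (aeval (C p) f) = aeval (C p') f := by
        intro f
        rw [← hCC]
        exact (Polynomial.aeval_algHom_apply (σ : E →ₐ[K] E) (C p) f).symm
      rwa [h8, h8] at h7
    rw [hwp p' hp' hpN'] at h6
    exact (mul_right_cancel₀ (hd p' hp' hpN') h6).symm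
  have hbot := (IsGalois.mem_bot_iff_fixed w').2 hfix
  rw [IntermediateField.mem_bot] at hbot
  obtain ⟨k, hk⟩ := hbot
  rw [← hww, ← hk]
  exact k.2

end Vale.Agent.P097.H896.D3
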