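import Vale.Agent.P097.H896.D3.Reg

/-! # P097 / H896 / D3 : base change of the label, dependence on the table -/

set_option linter.all false

open Polynomial

namespace Vale.Agent.P097.H896.D3

open Vale.Agent.P097.Disc

/-! ### base change of rational functions -/

section rmap

variable {K K' : Type*} [Field K] [Field K']

/-- the action of a homomorphism of fields on the coefficients of rational functions -/
noncomputable def rmap (σ : K →+* K') : RatFunc K →+* RatFunc K' :=
  IsLocalization.lift (M := nonZeroDivisors K[X]) (S := RatFunc K)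
    (g := (algebraMap K'[X] (RatFunc K')).comp (Polynomial.mapRingHom σ)) (fun f => by
      rw [isUnit_iff_ne_zero, RingHom.comp_apply, Polynomial.coe_mapRingHom]
      exact RatFunc.algebraMap_ne_zero
        ((Polynomial.map_ne_zero_iff σ.injective).2 (nonZeroDivisors.coe_ne_zero f)))

theorem rmap_algebraMap (σ : K →+* K') (f : K[X]) :
    rmap σ (algebraMap K[X] (RatFunc K) f) = algebraMap K'[X] (RatFunc K') (f.map σ) :=
  IsLocalization.lift_eq _ _

theorem rmap_C (σ : K →+* K') (c : K) : rmap σ (RatFunc.C c) = RatFunc.C (σ c) := by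
  rw [← RatFunc.algebraMap_C, rmap_algebraMap, Polynomial.map_C, RatFunc.algebraMap_C]

theorem rmap_X (σ : K →+* K') : rmap σ (RatFunc.X : RatFunc K) = RatFunc.X := by
  rw [← RatFunc.algebraMap_X, rmap_algebraMap, Polynomial.map_X, RatFunc.algebraMap_X]

theorem rmap_id (f : RatFunc K) : rmap (RingHom.id K) f = f := by
  have : rmap (RingHom.id K) = RingHom.id (RatFunc K) := by
    apply hom_ext
    · intro c; simp [rmap_C]
    · simp [rmap_X]
  exact DFunLike.congr_fun this f

theorem rmap_comp {K'' : Type*} [Field K''] (σ : K →+* K') (τ : K' →+* K'') (f : RatFunc K) :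
    rmap τ (rmap σ f) = rmap (τ.comp σ) f := by
  have : (rmap τ).comp (rmap σ) = rmap (τ.comp σ) := by
    apply hom_ext
    · intro c; simp [rmap_C]
    · simp [rmap_X]
  exact DFunLike.congr_fun this f

/-- regularity is compatible with base change -/
theorem regAt_rmap {σ : K →+* K'} {f : RatFunc K} {c : K} :
    RegAt (rmap σ f) (σ c) ↔ RegAt f c := by
  constructor
  · intro h h0
    have h1 : f * algebraMap K[X] (RatFunc K) f.denom = algebraMap K[X] (RatFunc K) f.num := by
      nth_rw 1 [← RatFunc.num_div_denom f]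
      rw [div_mul_cancel₀]
      exact RatFunc.algebraMap_ne_zero f.denom_ne_zero
    have h2 : ev (σ c) (rmap σ (f * algebraMap K[X] (RatFunc K) f.denom)) =
        ev (σ c) (rmap σ (algebraMap K[X] (RatFunc K) f.num)) := by rw [h1]
    rw [map_mul, rmap_algebraMap, rmap_algebraMap, ev_mul h (regAt_algebraMap _ _),
      ev_algebraMap, ev_algebraMap, Polynomial.eval_map_apply, Polynomial.eval_map_apply, h0,
      map_zero, mul_zero] at h2
    have h3 : f.num.eval c = 0 := σ.injective (by rw [← h2, map_zero])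
    obtain ⟨a, b, hab⟩ := RatFunc.isCoprime_num_denom f
    have h4 := congrArg (Polynomial.eval c) hab
    rw [eval_add, eval_mul, eval_mul, h0, h3, mul_zero, mul_zero, add_zero, eval_one] at h4
    exact zero_ne_one h4
  · intro h
    obtain ⟨u, v, hv, h1⟩ := regAt_iff.1 h
    refine regAt_iff.2 ⟨u.map σ, v.map σ, ?_, ?_⟩
    · rw [Polynomial.eval_map_apply]
      exact fun h2 => hv (σ.injective (by rw [h2, map_zero]))
    · rw [← rmap_algebraMap, ← rmap_algebraMap, ← map_mul, h1]

theorem ev_rmap {σ : K →+* K'} {f : RatFunc K} {c : K} (h : RegAt f c) :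
    ev (σ c) (rmap σ f) = σ (ev c f) := by
  obtain ⟨u, v, hv, h1⟩ := regAt_iff.1 h
  have hv' : (v.map σ).eval (σ c) ≠ 0 := by
    rw [Polynomial.eval_map_apply]
    exact fun h2 => hv (σ.injective (by rw [h2, map_zero]))
  rw [ev_of hv h1, ev_of (u := u.map σ) hv', map_div₀, Polynomial.eval_map_apply,
    Polynomial.eval_map_apply]
  rw [← rmap_algebraMap, ← rmap_algebraMap, ← map_mul, h1]

theorem rmap_iota (σ : K →+* K') (f : RatFunc K) : rmap σ (iota f) = iota (rmap σ f) := by
  have : (rmap σ).comp iota = iota.comp (rmap σ) := by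
    apply hom_ext
    · intro c; simp [rmap_C, iota_C]
    · simp [rmap_X, iota_X, map_inv₀]
  exact DFunLike.congr_fun this f

theorem rmap_p0 (σ : K →+* K') : rmap σ (p0 : RatFunc K) = p0 := by
  rw [p0, p0, map_mul, rmap_C, map_add, map_inv₀, rmap_X, map_div₀, map_one, map_ofNat]

theorem rmap_en (σ : K →+* K') (n : ℕ) : rmap σ (en n : RatFunc K) = en n := by
  rw [en, en, map_sub, map_pow, map_pow, map_inv₀, rmap_X]

theorem map_Ac (σ : K →+* K') (a : ℕ → K) (n : ℕ) : σ (Ac a n) = Ac (fun j => σ (a j)) n := by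
  rw [Ac, Ac, map_div₀, map_mul, map_add, map_one, map_natCast, map_ofNat]

theorem map_Bc (σ : K →+* K') (a : ℕ → K) (n : ℕ) : σ (Bc a n) = Bc (fun j => σ (a j)) n := by
  rw [Bc, Bc, map_div₀, map_mul, map_sub, map_one, map_natCast, map_ofNat]

variable [CharZero K] [CharZero K']

theorem rmap_sub0 (σ : K →+* K') (f : RatFunc K) : rmap σ (sub0 f) = sub0 (rmap σ f) := by
  have : (rmap σ).comp sub0 = sub0.comp (rmap σ) := by
    apply hom_ext
    · intro c; simp [rmap_C, sub0_C]
    · simp [rmap_X, sub0_X, rmap_p0]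
  exact DFunLike.congr_fun this f

theorem map_rmap_pz (σ : K →+* K') (a : ℕ → K) :
    PowerSeries.map (rmap σ) (pz a (RatFunc.X : RatFunc K)) =
      pz (fun j => σ (a j)) (RatFunc.X : RatFunc K') := by
  ext n
  rw [PowerSeries.coeff_map, coeff_pz, coeff_pz, map_add, map_mul, map_mul, rmap_C, rmap_C,
    map_inv₀, rmap_X, map_Ac, map_Bc]

theorem map_rmap_sub (σ : K →+* K') {P : PowerSeries (RatFunc K)} {P' : PowerSeries (RatFunc K')}
    (hP : PowerSeries.constantCoeff P = p0) (hP' : PowerSeries.constantCoeff P' = p0)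
    (h : PowerSeries.map (rmap σ) P = P') (f : RatFunc K) :
    PowerSeries.map (rmap σ) (sub hP f) = sub hP' (rmap σ f) := by
  have : (PowerSeries.map (rmap σ)).comp (sub hP) = (sub hP').comp (rmap σ) := by
    apply hom_ext
    · intro c; simp [rmap_C, sub_C]
    · simp only [RingHom.comp_apply]
      rw [rmap_X, sub_X, sub_X, h]
  exact DFunLike.congr_fun this f

theorem ha_map (σ : K →+* K') {a : ℕ → K} (ha : a 0 = 1) : σ (a 0) = 1 := by
  rw [ha, map_one]

theorem rmap_Ln (σ : K →+* K') {a : ℕ → K} (ha : a 0 = 1) (n : ℕ) (q : Fin n → RatFunc K) :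
    rmap σ (Ln ha n q) = Ln (a := fun j => σ (a j)) (ha_map σ ha) n (fun i => rmap σ (q i)) := by
  rw [Ln, Ln, map_sum]
  refine Finset.sum_congr rfl fun i _ => ?_
  rw [map_mul, map_pow, rmap_X, ← PowerSeries.coeff_map,
    map_rmap_sub σ (cc_pz ha) (cc_pz (a := fun j => σ (a j)) (ha_map σ ha)) (map_rmap_pz σ a)]

theorem rmap_known (σ : K →+* K') {a : ℕ → K} (ha : a 0 = 1) (n : ℕ) (q : Fin n → RatFunc K) :
    rmap σ (known ha n q) =
      known (a := fun j => σ (a j)) (ha_map σ ha) n (fun i => rmap σ (q i)) := by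
  rw [known, known, map_sub, rmap_iota, rmap_Ln]

/-- **base change of the label** -/
theorem isLabel_rmap (σ : K →+* K') {a : ℕ → K} (ha : a 0 = 1) {Q : ℕ → RatFunc K}
    (hQ : IsLabel a Q) : IsLabel (fun j => σ (a j)) (fun j => rmap σ (Q j)) := by
  have h := (isLabel_iff ha Q).1 hQ
  refine (isLabel_iff (ha_map σ ha) _).2 ⟨?_, fun n hn => ?_⟩
  · rw [h.1, rmap_X]
  · rw [← rmap_sub0, ← rmap_en σ, ← map_mul, h.2 n hn, rmap_known]

end rmap

/-! ### dependence on the coefficients of the table -/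

section congr

variable {K : Type*} [Field K] [CharZero K]

theorem coeff_sub_congr {P P' : PowerSeries (RatFunc K)} (hP : PowerSeries.constantCoeff P = p0)
    (hP' : PowerSeries.constantCoeff P' = p0) {m : ℕ}
    (h : ∀ j ≤ m, PowerSeries.coeff j P = PowerSeries.coeff j P') (f : RatFunc K) :
    PowerSeries.coeff m (sub hP f) = PowerSeries.coeff m (sub hP' f) := by
  set I : Ideal (PowerSeries (RatFunc K)) := Ideal.span {PowerSeries.X ^ (m + 1)} with hI
  have h1 : ((Ideal.Quotient.mk I).comp (sub hP)) = (Ideal.Quotient.mk I).comp (sub hP') := by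
    apply hom_ext
    · intro c
      simp [sub_C]
    · simp only [RingHom.comp_apply]
      rw [sub_X, sub_X, Ideal.Quotient.eq, hI, Ideal.mem_span_singleton,
        PowerSeries.X_pow_dvd_iff]
      intro j hj
      rw [map_sub, h j (by omega), sub_self]
  have h2 : (Ideal.Quotient.mk I) (sub hP f) = (Ideal.Quotient.mk I) (sub hP' f) :=
    DFunLike.congr_fun h1 f
  rw [Ideal.Quotient.eq, hI, Ideal.mem_span_singleton, PowerSeries.X_pow_dvd_iff] at h2
  have h3 := h2 m (Nat.lt_succ_self m)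
  rwa [map_sub, sub_eq_zero] at h3

theorem coeff_sub_pz_congr {a a' : ℕ → K} (ha : a 0 = 1) (ha' : a' 0 = 1) {m : ℕ}
    (h : ∀ j ≤ m, a j = a' j) (f : RatFunc K) :
    PowerSeries.coeff m (sub (cc_pz ha) f) = PowerSeries.coeff m (sub (cc_pz ha') f) := by
  apply coeff_sub_congr
  intro j hj
  rw [coeff_pz, coeff_pz, Ac, Ac, Bc, Bc, h j hj]

theorem Ln_congr {a a' : ℕ → K} (ha : a 0 = 1) (ha' : a' 0 = 1) {n : ℕ}
    (h : ∀ j ≤ n, a j = a' j) (q : Fin n → RatFunc K) : Ln ha n q = Ln ha' n q := by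
  rw [Ln, Ln]
  refine Finset.sum_congr rfl fun i _ => ?_
  rw [coeff_sub_pz_congr ha ha' fun j hj => h j (hj.trans (Nat.sub_le _ _))]

/-- the label up to order `n` depends only on the table up to order `n` -/
theorem label_congr {a a' : ℕ → K} (ha : a 0 = 1) (ha' : a' 0 = 1) {Q Q' : ℕ → RatFunc K}
    (hQ : IsLabel a Q) (hQ' : IsLabel a' Q') (n : ℕ) (h : ∀ j ≤ n, a j = a' j) : Q n = Q' n := by
  rw [isLabel_iff ha] at hQ
  rw [isLabel_iff ha'] at hQ'
  induction n using Nat.strong_induction_on with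
  | _ n ih =>
    rcases Nat.eq_zero_or_pos n with rfl | hn
    · rw [hQ.1, hQ'.1]
    · have h1 := hQ.2 n hn
      have h2 := hQ'.2 n hn
      have h3 : (fun i : Fin n => Q' i) = fun i : Fin n => Q i := by
        funext i
        exact (ih i i.2 fun j hj => h j (hj.trans i.2.le)).symm
      have h4 : known ha' n (fun i => Q i) = known ha n (fun i => Q i) := by
        rw [known, known, Ln_congr ha ha' h]
      rw [h3, h4, ← h1] at h2
      exact sub0_injective (mul_right_cancel₀ (ex_en (K := K) hn).1 h2.symm)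

/-- dependence of `known` on the last coefficient -/
theorem known_diff {a a' : ℕ → K} (ha : a 0 = 1) (ha' : a' 0 = 1) {n : ℕ} (hn : 1 ≤ n)
    (h : ∀ j < n, a j = a' j) (q : Fin n → RatFunc K) (hq : q ⟨0, hn⟩ = RatFunc.X) :
    known ha n q - known ha' n q =
      RatFunc.C ((n : K) * (a n - a' n)) * (RatFunc.X⁻¹ - RatFunc.X) := by
  have h1 : Ln ha n q - Ln ha' n q = RatFunc.C (Ac a n - Ac a' n) * RatFunc.X +
      RatFunc.C (Bc a n - Bc a' n) * RatFunc.X⁻¹ := by
    rw [Ln, Ln, ← Finset.sum_sub_distrib, Finset.sum_eq_single (⟨0, hn⟩ : Fin n)]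
    · rw [hq, sub_X, sub_X]
      show RatFunc.X ^ 0 * PowerSeries.coeff (n - 0) _ - RatFunc.X ^ 0 * PowerSeries.coeff (n - 0) _ = _
      rw [pow_zero, one_mul, one_mul, Nat.sub_zero, coeff_pz, coeff_pz, map_sub, map_sub]
      ring
    · intro i _ hi
      have hi' : (i : ℕ) ≠ 0 := fun h0 => hi (Fin.ext h0)
      have hin := i.2
      rw [coeff_sub_pz_congr ha ha' (fun j hj => h j (by omega)), sub_self]
    · intro h0
      exact absurd (Finset.mem_univ _) h0
  have h2 : known ha n q - known ha' n q =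
      iota (Ln ha n q - Ln ha' n q) - (Ln ha n q - Ln ha' n q) := by
    rw [known, known, map_sub]
    ring
  have h3 : RatFunc.C ((n : K) * (a n - a' n)) =
      RatFunc.C (Ac a n - Ac a' n) - RatFunc.C (Bc a n - Bc a' n) := by
    rw [← map_sub]
    congr 1
    rw [Ac, Ac, Bc, Bc]
    ring
  rw [h2, h1, map_add, map_mul, map_mul, iota_C, iota_C, map_inv₀, iota_X, inv_inv, h3]
  ring

/-- regularity of the label at a resonance determines the coefficient of the table -/
theorem coeff_unique {a a' : ℕ → K} (ha : a 0 = 1) (ha' : a' 0 = 1) {Q Q' : ℕ → RatFunc K}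
    (hQ : IsLabel a Q) (hQ' : IsLabel a' Q') {n : ℕ} (hn : 1 ≤ n) (h : ∀ j < n, a j = a' j)
    {s : K} (hs : s ^ (2 * n) = 1) (hs2 : s ^ 2 ≠ 1)
    (hreg : ∀ i ≤ n, RegAt (Q i) ((s + s⁻¹) / 2)) (hreg' : RegAt (Q' n) ((s + s⁻¹) / 2)) :
    a n = a' n := by
  have hs0 : s ≠ 0 := by
    rintro rfl
    rw [zero_pow (by omega)] at hs
    exact zero_ne_one hs
  have hQQ : (fun i : Fin n => Q' i) = fun i : Fin n => Q i := by
    funext i
    exact (label_congr ha ha' hQ hQ' i fun j hj => h j (lt_of_le_of_lt hj i.2)).symm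
  have h1 := (label_regAt_iff ha hQ hs0 hn (fun i hi => hreg i hi.le)).1 (hreg n le_rfl) hs
  have h2 := (label_regAt_iff ha' hQ' hs0 hn (fun i hi => by
    rw [← label_congr ha ha' hQ hQ' i fun j hj => h j (lt_of_le_of_lt hj hi)]
    exact hreg i hi.le)).1 hreg' hs
  rw [hQQ] at h2
  have h3 := congrArg (ev s) (known_diff ha ha' hn h (fun i => Q i) ((isLabel_iff ha Q).1 hQ).1)
  rw [ev_sub (known_mem hs0 ha n _ fun i => hreg i i.2.le)
    (known_mem hs0 ha' n _ fun i => hreg i i.2.le), h1, h2, sub_self,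
    ev_mul (regAt_C _ _) ((Rg s).sub_mem (Xinv_mem_rg hs0) (regAt_X s)), ev_C,
    ev_sub (Xinv_mem_rg hs0) (regAt_X s), ev_Xinv hs0, ev_X] at h3
  have h4 : s⁻¹ - s ≠ 0 := by
    intro h4
    apply hs2
    rw [sub_eq_zero] at h4
    rw [pow_two]
    nth_rw 1 [← h4]
    exact inv_mul_cancel₀ hs0
  have h5 := (mul_eq_zero.1 h3.symm).resolve_right h4
  have h6 := (mul_eq_zero.1 h5).resolve_left (by exact_mod_cast (by omega : n ≠ 0))
  exact sub_eq_zero.1 h6

/-- **key step of [D2]**: an endomorphism fixing the coefficients below `n` fixes the `n`-th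
coefficient if the label is regular (up to order `n`) at `c = (s + s⁻¹)/2` and at `σ c` -/
theorem coeff_fixed {a : ℕ → K} (ha : a 0 = 1) {Q : ℕ → RatFunc K} (hQ : IsLabel a Q)
    (σ : K →+* K) {n : ℕ} (hn : 1 ≤ n) (h : ∀ j < n, σ (a j) = a j)
    {s : K} (hs : s ^ (2 * n) = 1) (hs2 : s ^ 2 ≠ 1)
    (hreg : ∀ i ≤ n, RegAt (Q i) ((s + s⁻¹) / 2))
    (hreg' : ∀ i ≤ n, RegAt (Q i) ((σ s + (σ s)⁻¹) / 2)) : σ (a n) = a n := by
  have hc : σ ((s + s⁻¹) / 2) = (σ s + (σ s)⁻¹) / 2 := by
    rw [map_div₀, map_add, map_inv₀, map_ofNat]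
  refine (coeff_unique ha (ha_map σ ha) hQ (isLabel_rmap σ ha hQ) hn (fun j hj => (h j hj).symm)
    (s := σ s) (by rw [← map_pow, hs, map_one]) ?_ hreg' ?_).symm
  · intro h1
    apply hs2
    apply σ.injective
    rw [map_pow, h1, map_one]
  · rw [← hc, regAt_rmap]
    exact hreg n le_rfl

end congr

end Vale.Agent.P097.H896.D3
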