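import Mathlib

/-! # P097 / H896 / D3 : degrees of rational functions (order at infinity) -/

set_option linter.all false

open Polynomial

namespace Vale.Agent.P097.H896.D3

variable {K : Type*} [Field K]

/-- `f = O(p ^ m)` at infinity -/
def Dg (m : ℤ) (f : RatFunc K) : Prop := f = 0 ∨ f.intDegree ≤ m

/-- exact degree -/
def Ex (m : ℤ) (f : RatFunc K) : Prop := f ≠ 0 ∧ f.intDegree = m

theorem Dg.zero (m : ℤ) : Dg m (0 : RatFunc K) := Or.inl rfl

theorem Dg.mono {m n : ℤ} (hmn : m ≤ n) {f : RatFunc K} (h : Dg m f) : Dg n f :=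
  h.imp id fun h => h.trans hmn

theorem Ex.dg {m : ℤ} {f : RatFunc K} (h : Ex m f) : Dg m f := Or.inr h.2.le

theorem Dg.neg {m : ℤ} {f : RatFunc K} (h : Dg m f) : Dg m (-f) := by
  rcases h with rfl | h
  · exact Or.inl neg_zero
  · exact Or.inr (by rwa [RatFunc.intDegree_neg])

theorem Dg.add {m : ℤ} {f g : RatFunc K} (hf : Dg m f) (hg : Dg m g) : Dg m (f + g) := by
  by_cases hfg : f + g = 0
  · exact Or.inl hfg
  rcases hf with rfl | hf
  · rw [zero_add]; exact hg
  rcases hg with rfl | hg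
  · rw [add_zero]; exact Or.inr hf
  by_cases hg0 : g = 0
  · rw [hg0, add_zero]; exact Or.inr hf
  exact Or.inr ((RatFunc.intDegree_add_le hg0 hfg).trans (max_le hf hg))

theorem Dg.sub {m : ℤ} {f g : RatFunc K} (hf : Dg m f) (hg : Dg m g) : Dg m (f - g) := by
  rw [sub_eq_add_neg]; exact hf.add hg.neg

theorem Dg.mul {m n : ℤ} {f g : RatFunc K} (hf : Dg m f) (hg : Dg n g) : Dg (m + n) (f * g) := by
  rcases hf with rfl | hf
  · exact Or.inl (zero_mul _)
  rcases hg with rfl | hg
  · exact Or.inl (mul_zero _)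
  by_cases hf0 : f = 0
  · exact Or.inl (by rw [hf0, zero_mul])
  by_cases hg0 : g = 0
  · exact Or.inl (by rw [hg0, mul_zero])
  exact Or.inr (by rw [RatFunc.intDegree_mul hf0 hg0]; exact add_le_add hf hg)

theorem Dg.sum {ι : Type*} {m : ℤ} (s : Finset ι) (f : ι → RatFunc K) (h : ∀ i ∈ s, Dg m (f i)) :
    Dg m (∑ i ∈ s, f i) := by
  classical
  induction s using Finset.induction_on with
  | empty => simpa using Dg.zero m
  | insert a s ha ih =>
    rw [Finset.sum_insert ha]
    exact (h a (Finset.mem_insert_self _ _)).add (ih fun i hi => h i (Finset.mem_insert_of_mem hi))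

theorem Ex.mul {m n : ℤ} {f g : RatFunc K} (hf : Ex m f) (hg : Ex n g) : Ex (m + n) (f * g) :=
  ⟨mul_ne_zero hf.1 hg.1, by rw [RatFunc.intDegree_mul hf.1 hg.1, hf.2, hg.2]⟩

theorem Ex.inv {m : ℤ} {f : RatFunc K} (hf : Ex m f) : Ex (-m) f⁻¹ :=
  ⟨inv_ne_zero hf.1, by rw [RatFunc.intDegree_inv, hf.2]⟩

theorem Ex.neg {m : ℤ} {f : RatFunc K} (hf : Ex m f) : Ex m (-f) :=
  ⟨neg_ne_zero.2 hf.1, by rw [RatFunc.intDegree_neg, hf.2]⟩

theorem Ex.one : Ex 0 (1 : RatFunc K) := ⟨one_ne_zero, RatFunc.intDegree_one⟩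

theorem Ex.C {c : K} (hc : c ≠ 0) : Ex 0 (RatFunc.C c) :=
  ⟨by rwa [ne_eq, map_eq_zero_iff _ RatFunc.C_injective], RatFunc.intDegree_C c⟩

theorem Dg.C (c : K) : Dg 0 (RatFunc.C c) := Or.inr (RatFunc.intDegree_C c).le

theorem Ex.X : Ex 1 (RatFunc.X : RatFunc K) := ⟨RatFunc.X_ne_zero, RatFunc.intDegree_X⟩

theorem Ex.pow {m : ℤ} {f : RatFunc K} (hf : Ex m f) (n : ℕ) : Ex (n * m) (f ^ n) := by
  induction n with
  | zero => simpa using Ex.one
  | succ n ih =>
    rw [pow_succ]
    have := ih.mul hf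
    push_cast
    rwa [add_mul, one_mul]

theorem Dg.pow {m : ℤ} {f : RatFunc K} (hf : Dg m f) (n : ℕ) : Dg (n * m) (f ^ n) := by
  induction n with
  | zero => simpa using (Ex.one (K := K)).dg
  | succ n ih =>
    rw [pow_succ]
    have := ih.mul hf
    push_cast
    rwa [add_mul, one_mul]

theorem Ex.add_dg {m : ℤ} {f g : RatFunc K} (hf : Ex m f) (hg : Dg (m - 1) g) : Ex m (f + g) := by
  rcases hg with rfl | hg
  · rwa [add_zero]
  have hfg : f + g ≠ 0 := by
    intro h
    have : g = -f := by rw [← add_right_inj f, h, add_neg_cancel]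
    rw [this, RatFunc.intDegree_neg, hf.2] at hg
    linarith
  refine ⟨hfg, le_antisymm ?_ ?_⟩
  · have h1 : Dg m (f + g) := hf.dg.add (Or.inr (by linarith))
    exact h1.resolve_left hfg
  · by_contra hlt
    push Not at hlt
    have h1 : Dg (m - 1) (f + g) := Or.inr (by linarith)
    have h2 : Dg (m - 1) f := by
      have := h1.sub (Or.inr hg : Dg (m - 1) g)
      rwa [add_sub_cancel_right] at this
    have := h2.resolve_left hf.1
    rw [hf.2] at this
    linarith

/-- values of polynomials at a rational function of positive exact degree 1 -/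
theorem Ex.eval₂ {P : RatFunc K} (hP : Ex 1 P) {f : K[X]} (hf : f ≠ 0) :
    Ex f.natDegree (f.eval₂ RatFunc.C P) := by
  rw [Polynomial.eval₂_eq_sum_range, Finset.sum_range_succ, add_comm]
  refine Ex.add_dg ?_ ?_
  · have h1 : Ex 0 (RatFunc.C (f.coeff f.natDegree)) :=
      Ex.C (by simpa using hf)
    have := h1.mul (hP.pow f.natDegree)
    simpa using this
  · refine Dg.sum _ _ fun i hi => ?_
    have hi' := Finset.mem_range.1 hi
    have := (Dg.C (f.coeff i)).mul (hP.pow i).dg
    refine this.mono ?_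
    simp
    omega

theorem Dg.eval₂ {P : RatFunc K} (hP : Dg 1 P) (f : K[X]) :
    Dg f.natDegree (f.eval₂ RatFunc.C P) := by
  rw [Polynomial.eval₂_eq_sum_range]
  refine Dg.sum _ _ fun i hi => ?_
  have hi' := Finset.mem_range.1 hi
  have := (Dg.C (f.coeff i)).mul (hP.pow i)
  refine this.mono ?_
  simp
  omega

/-- values of polynomials at a rational function of negative degree -/
theorem Dg.eval₂_neg {P : RatFunc K} (hP : Dg (-1) P) (f : K[X]) :
    Dg 0 (f.eval₂ RatFunc.C P) := by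
  rw [Polynomial.eval₂_eq_sum_range]
  refine Dg.sum _ _ fun i hi => ?_
  have := (Dg.C (f.coeff i)).mul (hP.pow i)
  refine this.mono ?_
  simp

theorem eval₂_ne_zero_of_neg {P : RatFunc K} (hP : Dg (-1) P) (hP0 : P ≠ 0) :
    ∀ (n : ℕ) (f : K[X]), f.natDegree ≤ n → f ≠ 0 → f.eval₂ RatFunc.C P ≠ 0 := by
  intro n
  induction n with
  | zero =>
    intro f hf hf0
    rw [Polynomial.eq_C_of_natDegree_le_zero hf] at hf0 ⊢
    rw [Polynomial.eval₂_C]
    have : f.coeff 0 ≠ 0 := fun h => hf0 (by rw [h, map_zero])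
    exact (Ex.C this).1
  | succ n ih =>
    intro f hf hf0
    rw [← Polynomial.divX_mul_X_add f, Polynomial.eval₂_add, Polynomial.eval₂_mul,
      Polynomial.eval₂_X, Polynomial.eval₂_C]
    by_cases h0 : f.coeff 0 = 0
    · rw [h0, map_zero, add_zero]
      refine mul_ne_zero (ih _ ?_ ?_) hP0
      · rw [Polynomial.natDegree_divX_eq_natDegree_tsub_one]; omega
      · intro h
        apply hf0
        rw [← Polynomial.divX_mul_X_add f, h, h0]; simp
    · have h1 : Ex 0 (RatFunc.C (f.coeff 0)) := Ex.C h0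
      have h2 : Dg (0 - 1) (f.divX.eval₂ RatFunc.C P * P) := by
        have := (Dg.eval₂_neg hP f.divX).mul hP
        simpa using this
      rw [add_comm]
      exact (h1.add_dg h2).1

end Vale.Agent.P097.H896.D3
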