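import Vale.Agent.P097.H896.D3.Deg

/-! # P097 / H896 / D3 : substitution of the pencil into rational functions -/

set_option linter.all false

open Polynomial

namespace Vale.Agent.P097.H896.D3

variable {K : Type*} [Field K]

/-! ### a substitution `f(N) = ∑ f_k N^k ↦ ∑ φ(f_k) (t z)^k` -/

section Shift

variable {R S : Type*} [CommRing R] [CommRing S]

/-- `∑ f_k N^k ↦ ∑ φ(f_k) (t z)^k`, as a function -/
noncomputable def shiftFun (φ : R →+* PowerSeries S) (t : S) (f : PowerSeries R) : PowerSeries S :=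
  PowerSeries.mk fun n => ∑ k ∈ Finset.range (n + 1),
    PowerSeries.coeff (n - k) (φ (PowerSeries.coeff k f)) * t ^ k

/-- the same on polynomials -/
noncomputable def shiftPoly (φ : R →+* PowerSeries S) (t : S) : R[X] →+* PowerSeries S :=
  Polynomial.eval₂RingHom φ (PowerSeries.C t * PowerSeries.X)

theorem coeff_mul_tX_pow (g : PowerSeries S) (t : S) (k n : ℕ) :
    PowerSeries.coeff n (g * (PowerSeries.C t * PowerSeries.X) ^ k) =
      if k ≤ n then PowerSeries.coeff (n - k) g * t ^ k else 0 := by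
  rw [mul_pow, ← map_pow, mul_left_comm, PowerSeries.coeff_C_mul, PowerSeries.coeff_mul_X_pow']
  split_ifs
  · rw [mul_comm]
  · rw [mul_zero]

theorem coeff_shiftPoly (φ : R →+* PowerSeries S) (t : S) (P : R[X]) (f : PowerSeries R) (n : ℕ)
    (h : ∀ k ≤ n, P.coeff k = PowerSeries.coeff k f) :
    PowerSeries.coeff n (shiftPoly φ t P) = PowerSeries.coeff n (shiftFun φ t f) := by
  have hN : P.natDegree < max (P.natDegree + 1) (n + 1) := lt_of_lt_of_le (Nat.lt_succ_self _)
    (le_max_left _ _)
  rw [shiftPoly, Polynomial.coe_eval₂RingHom, Polynomial.eval₂_eq_sum_range' φ hN, map_sum,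
    shiftFun, PowerSeries.coeff_mk]
  rw [← Finset.sum_subset (Finset.range_mono (le_max_right (P.natDegree + 1) (n + 1)))]
  · refine Finset.sum_congr rfl fun k hk => ?_
    have hk' : k ≤ n := Nat.lt_succ_iff.1 (Finset.mem_range.1 hk)
    rw [coeff_mul_tX_pow, if_pos hk', h k hk']
  · intro k _ hk
    have hk' : ¬ k ≤ n := fun h => hk (Finset.mem_range.2 (Nat.lt_succ_iff.2 h))
    rw [coeff_mul_tX_pow, if_neg hk']

/-- `∑ f_k N^k ↦ ∑ φ(f_k) (t z)^k`, as a ring homomorphism -/
noncomputable def shift (φ : R →+* PowerSeries S) (t : S) : PowerSeries R →+* PowerSeries S where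
  toFun := shiftFun φ t
  map_one' := by
    ext n
    rw [← coeff_shiftPoly φ t (1 : R[X]) 1 n, map_one]
    intro k _
    rw [Polynomial.coeff_one, PowerSeries.coeff_one]
  map_zero' := by
    ext n
    rw [← coeff_shiftPoly φ t (0 : R[X]) 0 n, map_zero]
    intro k _
    simp
  map_add' f g := by
    ext n
    simp only [shiftFun, PowerSeries.coeff_mk, map_add, add_mul, Finset.sum_add_distrib]
  map_mul' f g := by
    ext n
    rw [← coeff_shiftPoly φ t (PowerSeries.trunc (n + 1) f * PowerSeries.trunc (n + 1) g) (f * g) n,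
      map_mul, PowerSeries.coeff_mul, PowerSeries.coeff_mul]
    · refine Finset.sum_congr rfl fun x hx => ?_
      have hx' := Finset.HasAntidiagonal.mem_antidiagonal.1 hx
      rw [coeff_shiftPoly φ t _ f, coeff_shiftPoly φ t _ g]
      · intro k hk
        rw [PowerSeries.coeff_trunc, if_pos (by omega)]
      · intro k hk
        rw [PowerSeries.coeff_trunc, if_pos (by omega)]
    · intro k hk
      rw [Polynomial.coeff_mul, PowerSeries.coeff_mul]
      refine Finset.sum_congr rfl fun x hx => ?_
      have hx' := Finset.HasAntidiagonal.mem_antidiagonal.1 hx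
      rw [PowerSeries.coeff_trunc, PowerSeries.coeff_trunc, if_pos (by omega), if_pos (by omega)]

theorem coeff_shift (φ : R →+* PowerSeries S) (t : S) (f : PowerSeries R) (n : ℕ) :
    PowerSeries.coeff n (shift φ t f) = ∑ k ∈ Finset.range (n + 1),
      PowerSeries.coeff (n - k) (φ (PowerSeries.coeff k f)) * t ^ k := by
  show PowerSeries.coeff n (shiftFun φ t f) = _
  rw [shiftFun, PowerSeries.coeff_mk]

theorem shift_C (φ : R →+* PowerSeries S) (t : S) (r : R) : shift φ t (PowerSeries.C r) = φ r := by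
  ext n
  show PowerSeries.coeff n (shiftFun φ t (PowerSeries.C r)) = _
  rw [← coeff_shiftPoly φ t (Polynomial.C r) _ n, shiftPoly, Polynomial.coe_eval₂RingHom,
    Polynomial.eval₂_C]
  intro k _
  rw [Polynomial.coeff_C, PowerSeries.coeff_C]

theorem shift_X (φ : R →+* PowerSeries S) (t : S) :
    shift φ t PowerSeries.X = PowerSeries.C t * PowerSeries.X := by
  ext n
  show PowerSeries.coeff n (shiftFun φ t PowerSeries.X) = _
  rw [← coeff_shiftPoly φ t Polynomial.X _ n, shiftPoly, Polynomial.coe_eval₂RingHom,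
    Polynomial.eval₂_X]
  intro k _
  rw [Polynomial.coeff_X, PowerSeries.coeff_X]
  congr 1
  exact propext eq_comm

end Shift

/-! ### filtration of power series over rational functions -/

/-- all coefficients are `O(p ^ m)` -/
def PDg (m : ℤ) (g : PowerSeries (RatFunc K)) : Prop := ∀ i, Dg m (PowerSeries.coeff i g)

theorem PDg.mono {m n : ℤ} (hmn : m ≤ n) {g : PowerSeries (RatFunc K)} (h : PDg m g) : PDg n g :=
  fun i => (h i).mono hmn

theorem PDg.add {m : ℤ} {f g : PowerSeries (RatFunc K)} (hf : PDg m f) (hg : PDg m g) :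
    PDg m (f + g) := fun i => by rw [map_add]; exact (hf i).add (hg i)

theorem PDg.mul {m n : ℤ} {f g : PowerSeries (RatFunc K)} (hf : PDg m f) (hg : PDg n g) :
    PDg (m + n) (f * g) := fun i => by
  rw [PowerSeries.coeff_mul]
  exact Dg.sum _ _ fun x _ => (hf _).mul (hg _)

theorem PDg.sum {ι : Type*} {m : ℤ} (s : Finset ι) (f : ι → PowerSeries (RatFunc K))
    (h : ∀ i ∈ s, PDg m (f i)) : PDg m (∑ i ∈ s, f i) := fun j => by
  rw [map_sum]
  exact Dg.sum _ _ fun i hi => h i hi j

theorem PDg.C {m : ℤ} {c : RatFunc K} (hc : Dg m c) : PDg m (PowerSeries.C c) := fun i => by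
  rw [PowerSeries.coeff_C]
  split_ifs
  · exact hc
  · exact Dg.zero _

theorem PDg.pow {m : ℤ} {g : PowerSeries (RatFunc K)} (hg : PDg m g) (n : ℕ) :
    PDg (n * m) (g ^ n) := by
  induction n with
  | zero =>
    have : PDg (0 : ℤ) (PowerSeries.C (1 : RatFunc K)) := PDg.C Ex.one.dg
    simpa using this
  | succ n ih =>
    rw [pow_succ]
    have := ih.mul hg
    push_cast
    rwa [add_mul, one_mul]

theorem PDg.inv {m : ℤ} {g : PowerSeries (RatFunc K)} (hg : PDg m g)
    (h0 : Ex m (PowerSeries.constantCoeff g)) : PDg (-m) g⁻¹ := by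
  intro n
  induction n using Nat.strong_induction_on with
  | _ n ih =>
    rw [PowerSeries.coeff_inv]
    split_ifs with hn
    · exact h0.inv.dg
    · have h1 : Dg 0 (∑ x ∈ Finset.HasAntidiagonal.antidiagonal n,
          if x.2 < n then PowerSeries.coeff x.1 g * PowerSeries.coeff x.2 g⁻¹ else 0) := by
        refine Dg.sum _ _ fun x _ => ?_
        split_ifs with hx
        · have := (hg x.1).mul (ih x.2 hx)
          simpa using this
        · exact Dg.zero _
      have := (h0.inv.neg.dg).mul h1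
      simpa using this

/-! ### regularity of power series at a point, through an arbitrary subring -/

/-- all coefficients are in a subring -/
def PIn (T : Subring (RatFunc K)) (g : PowerSeries (RatFunc K)) : Prop :=
  ∀ i, PowerSeries.coeff i g ∈ T

theorem PIn.add {T : Subring (RatFunc K)} {f g : PowerSeries (RatFunc K)} (hf : PIn T f)
    (hg : PIn T g) : PIn T (f + g) := fun i => by rw [map_add]; exact T.add_mem (hf i) (hg i)

theorem PIn.mul {T : Subring (RatFunc K)} {f g : PowerSeries (RatFunc K)} (hf : PIn T f)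
    (hg : PIn T g) : PIn T (f * g) := fun i => by
  rw [PowerSeries.coeff_mul]
  exact T.sum_mem fun x _ => T.mul_mem (hf _) (hg _)

theorem PIn.one (T : Subring (RatFunc K)) : PIn T 1 := fun i => by
  rw [PowerSeries.coeff_one]
  split_ifs
  · exact T.one_mem
  · exact T.zero_mem

theorem PIn.C {T : Subring (RatFunc K)} {c : RatFunc K} (hc : c ∈ T) : PIn T (PowerSeries.C c) :=
  fun i => by
  rw [PowerSeries.coeff_C]
  split_ifs
  · exact hc
  · exact T.zero_mem

theorem PIn.pow {T : Subring (RatFunc K)} {g : PowerSeries (RatFunc K)} (hg : PIn T g) (n : ℕ) :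
    PIn T (g ^ n) := by
  induction n with
  | zero => simpa using PIn.one T
  | succ n ih => rw [pow_succ]; exact ih.mul hg

theorem PIn.sum {ι : Type*} {T : Subring (RatFunc K)} (s : Finset ι)
    (f : ι → PowerSeries (RatFunc K)) (h : ∀ i ∈ s, PIn T (f i)) : PIn T (∑ i ∈ s, f i) :=
  fun j => by
  rw [map_sum]
  exact T.sum_mem fun i hi => h i hi j

theorem PIn.inv {T : Subring (RatFunc K)} {g : PowerSeries (RatFunc K)} (hg : PIn T g)
    (h0 : (PowerSeries.constantCoeff g)⁻¹ ∈ T) : PIn T g⁻¹ := by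
  intro n
  induction n using Nat.strong_induction_on with
  | _ n ih =>
    rw [PowerSeries.coeff_inv]
    split_ifs with hn
    · exact h0
    · refine T.mul_mem (T.neg_mem h0) (T.sum_mem fun x _ => ?_)
      split_ifs with hx
      · exact T.mul_mem (hg x.1) (ih x.2 hx)
      · exact T.zero_mem

/-! ### the pencil -/

/-- `p₀ = (ξ + ξ⁻¹) / 2` -/
noncomputable def p0 : RatFunc K := RatFunc.C (1 / 2) * (RatFunc.X + RatFunc.X⁻¹)

theorem Ex.p0 [CharZero K] : Ex 1 (p0 : RatFunc K) := by
  have h1 : Ex 1 (RatFunc.X + RatFunc.X⁻¹ : RatFunc K) :=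
    Ex.X.add_dg (Ex.X.inv.dg.mono (by norm_num))
  have h2 : Ex 0 (RatFunc.C (1 / 2 : K)) := Ex.C (by norm_num)
  have := h2.mul h1
  rwa [zero_add] at this

/-- polynomials evaluated at a pencil `P` -/
noncomputable def subPoly (P : PowerSeries (RatFunc K)) : K[X] →+* PowerSeries (RatFunc K) :=
  Polynomial.eval₂RingHom (PowerSeries.C.comp RatFunc.C) P

theorem constantCoeff_subPoly (P : PowerSeries (RatFunc K)) (f : K[X]) :
    PowerSeries.constantCoeff (subPoly P f) =
      f.eval₂ RatFunc.C (PowerSeries.constantCoeff P) := by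
  rw [subPoly, Polynomial.coe_eval₂RingHom, Polynomial.hom_eval₂]
  congr 1

theorem subPoly_ne_zero [CharZero K] {P : PowerSeries (RatFunc K)}
    (hP : PowerSeries.constantCoeff P = p0) {f : K[X]} (hf : f ≠ 0) :
    PowerSeries.constantCoeff (subPoly P f) ≠ 0 := by
  rw [constantCoeff_subPoly, hP]
  exact (Ex.p0.eval₂ hf).1

theorem subPoly_isUnit [CharZero K] {P : PowerSeries (RatFunc K)}
    (hP : PowerSeries.constantCoeff P = p0) (f : nonZeroDivisors K[X]) :
    IsUnit (subPoly P f) := by
  rw [PowerSeries.isUnit_iff_constantCoeff, isUnit_iff_ne_zero]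
  exact subPoly_ne_zero hP (nonZeroDivisors.coe_ne_zero f)

/-- rational functions evaluated at a pencil `P` with constant term `p₀` -/
noncomputable def sub [CharZero K] {P : PowerSeries (RatFunc K)}
    (hP : PowerSeries.constantCoeff P = p0) : RatFunc K →+* PowerSeries (RatFunc K) :=
  IsLocalization.lift (M := nonZeroDivisors K[X]) (S := RatFunc K) (g := subPoly P)
    (subPoly_isUnit hP)

section
variable [CharZero K] {P : PowerSeries (RatFunc K)} (hP : PowerSeries.constantCoeff P = p0)

theorem sub_algebraMap (f : K[X]) : sub hP (algebraMap K[X] (RatFunc K) f) = subPoly P f :=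
  IsLocalization.lift_eq _ _

theorem sub_C (c : K) : sub hP (RatFunc.C c) = PowerSeries.C (RatFunc.C c) := by
  rw [← RatFunc.algebraMap_C, sub_algebraMap, subPoly, Polynomial.coe_eval₂RingHom,
    Polynomial.eval₂_C]
  rfl

theorem sub_X : sub hP RatFunc.X = P := by
  rw [← RatFunc.algebraMap_X, sub_algebraMap, subPoly, Polynomial.coe_eval₂RingHom,
    Polynomial.eval₂_X]

theorem sub_eq (f : RatFunc K) :
    sub hP f = subPoly P f.num * (subPoly P f.denom)⁻¹ := by
  have h1 : subPoly P f.denom ≠ 0 := by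
    intro h
    apply subPoly_ne_zero hP f.denom_ne_zero
    rw [h, map_zero]
  have h0 := subPoly_ne_zero hP f.denom_ne_zero
  have h2 : sub hP f * subPoly P f.denom = subPoly P f.num := by
    rw [← sub_algebraMap hP, ← sub_algebraMap hP, ← map_mul]
    congr 1
    nth_rw 1 [← RatFunc.num_div_denom f]
    rw [div_mul_cancel₀]
    exact RatFunc.algebraMap_ne_zero f.denom_ne_zero
  rw [← h2, mul_assoc, PowerSeries.mul_inv_cancel _ h0, mul_one]

theorem pdg_subPoly {P : PowerSeries (RatFunc K)} (hP1 : PDg 1 P) (f : K[X]) :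
    PDg f.natDegree (subPoly P f) := by
  rw [subPoly, Polynomial.coe_eval₂RingHom, Polynomial.eval₂_eq_sum_range]
  refine PDg.sum _ _ fun i hi => ?_
  have hi' := Finset.mem_range.1 hi
  have h1 : PDg 0 ((PowerSeries.C.comp RatFunc.C) (f.coeff i) : PowerSeries (RatFunc K)) :=
    PDg.C (Dg.C _)
  refine (h1.mul (hP1.pow i)).mono ?_
  simp
  omega

theorem pdg_sub (hP1 : PDg 1 P) {m : ℤ} {f : RatFunc K} (hf : Dg m f) : PDg m (sub hP f) := by
  by_cases hf0 : f = 0
  · rw [hf0, map_zero]
    intro i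
    rw [map_zero]
    exact Dg.zero _
  have hm := hf.resolve_left hf0
  rw [sub_eq]
  have h1 := pdg_subPoly hP1 f.num
  have h2 := pdg_subPoly hP1 f.denom
  have h3 : Ex f.denom.natDegree (PowerSeries.constantCoeff (subPoly P f.denom)) := by
    rw [constantCoeff_subPoly, hP]
    exact Ex.p0.eval₂ f.denom_ne_zero
  refine (h1.mul (h2.inv h3)).mono ?_
  rw [RatFunc.intDegree] at hm
  linarith

theorem pin_subPoly {T : Subring (RatFunc K)} (hT : ∀ c : K, RatFunc.C c ∈ T)
    {P : PowerSeries (RatFunc K)} (hP1 : PIn T P) (f : K[X]) : PIn T (subPoly P f) := by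
  rw [subPoly, Polynomial.coe_eval₂RingHom, Polynomial.eval₂_eq_sum_range]
  refine PIn.sum _ _ fun i hi => ?_
  exact (PIn.C (hT _)).mul (hP1.pow i)

theorem pin_sub {T : Subring (RatFunc K)} (hT : ∀ c : K, RatFunc.C c ∈ T) (hP1 : PIn T P)
    {f : RatFunc K} (hf : (f.denom.eval₂ RatFunc.C p0)⁻¹ ∈ T) : PIn T (sub hP f) := by
  rw [sub_eq]
  refine (pin_subPoly hT hP1 _).mul ((pin_subPoly hT hP1 _).inv ?_)
  rw [constantCoeff_subPoly, hP]
  exact hf

end

end Vale.Agent.P097.H896.D3
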